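import Vale.Agent.P168.MP.Calc

/-! Monotonicity, scaling and factorisation of the nested power means. -/

namespace Vale.Agent.P168.MP.Upper

open Finset Real

/-- exponents at all levels `l ≥ 1`, equal to `1` at level `R` -/
structure Exps (R : ℕ) (m : ℕ → ℝ) : Prop where
  pos : ∀ l, 0 < m l
  mono : ∀ l, 1 ≤ l → l < R → m l ≤ m (l + 1)
  top : m R = 1

variable {Ω A B : Type*} [Fintype Ω] [Fintype A] [Fintype B] {m : ℕ → ℝ}

section avg

lemma avg_equiv (e : Ω ≃ A) (f : A → ℝ) : avg (fun o => f (e o)) = avg f := by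
  rw [avg, avg, Fintype.card_congr e, e.sum_comp]

lemma avg_mul (f : A → ℝ) (g : B → ℝ) :
    avg (fun o : A × B => f o.1 * g o.2) = avg f * avg g := by
  rw [avg, avg, avg, Fintype.sum_prod_type, Fintype.card_prod, Nat.cast_mul, div_mul_div_comm,
    Finset.sum_mul_sum]

lemma avg_pi {ι : Type*} [Fintype ι] [DecidableEq ι] {β : ι → Type*} [∀ i, Fintype (β i)]
    (f : ∀ i, β i → ℝ) : avg (fun o : ∀ i, β i => ∏ i, f i (o i)) = ∏ i, avg (f i) := by
  simp only [avg]
  rw [Finset.prod_div_distrib, ← Fintype.prod_sum, Fintype.card_pi, Nat.cast_prod]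

lemma avg_fst [Nonempty B] (f : A → ℝ) : avg (fun o : A × B => f o.1) = avg f := by
  simpa [avg_const] using avg_mul f (fun _ : B => (1 : ℝ))

lemma avg_mul_left (c : ℝ) (f : Ω → ℝ) : avg (fun o => c * f o) = c * avg f := by
  rw [avg, avg, ← mul_sum, mul_div_assoc]

lemma avg_le_avg {f g : Ω → ℝ} (h : ∀ o, f o ≤ g o) : avg f ≤ avg g :=
  div_le_div_of_nonneg_right (sum_le_sum fun o _ => h o) (Nat.cast_nonneg _)

lemma avg_nonneg {f : Ω → ℝ} (h : ∀ o, 0 ≤ f o) : 0 ≤ avg f :=
  div_nonneg (sum_nonneg fun o _ => h o) (Nat.cast_nonneg _)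

end avg

lemma Z_zero (w : List Ω → ℝ) (pre : List Ω) : Z m w 0 pre = w pre := by rw [Z]

lemma Z_succ (w : List Ω → ℝ) (k : ℕ) (pre : List Ω) :
    Z m w (k + 1) pre =
      (avg fun o => Z m w k (pre ++ [o]) ^ m (pre.length + 1)) ^ (1 / m (pre.length + 1)) := by
  rw [Z]

lemma Z_congr {w w' : List Ω → ℝ} :
    ∀ (k : ℕ) (pre : List Ω),
      (∀ suf : List Ω, suf.length = k → w (pre ++ suf) = w' (pre ++ suf)) →
      Z m w k pre = Z m w' k pre
  | 0, pre, h => by simpa [Z_zero] using h [] rfl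
  | k + 1, pre, h => by
    have : ∀ o, Z m w k (pre ++ [o]) = Z m w' k (pre ++ [o]) := fun o =>
      Z_congr k _ fun suf hs => by simpa using h (o :: suf) (by simp [hs])
    simp only [Z_succ, this]

variable (hm : ∀ l, 0 < m l)
include hm

omit hm in
lemma Z_nonneg {w : List Ω → ℝ} (hw : ∀ p, 0 ≤ w p) : ∀ k pre, 0 ≤ Z m w k pre
  | 0, pre => by rw [Z_zero]; exact hw pre
  | k + 1, pre => by
    rw [Z_succ]; exact rpow_nonneg (avg_nonneg fun o => rpow_nonneg (Z_nonneg hw k _) _) _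

lemma Z_mono {w w' : List Ω → ℝ} (hw : ∀ p, 0 ≤ w p) (h : ∀ p, w p ≤ w' p) :
    ∀ k pre, Z m w k pre ≤ Z m w' k pre
  | 0, pre => by simpa [Z_zero] using h pre
  | k + 1, pre => by
    simp only [Z_succ]
    refine rpow_le_rpow (avg_nonneg fun o => rpow_nonneg (Z_nonneg hw k _) _)
      (avg_le_avg fun o => ?_) (one_div_pos.2 (hm _)).le
    exact rpow_le_rpow (Z_nonneg hw k _) (Z_mono hw h k _) (hm _).le

lemma Z_const_mul {w : List Ω → ℝ} (hw : ∀ p, 0 ≤ w p) {c : ℝ} (hc : 0 ≤ c) :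
    ∀ k pre, Z m (fun p => c * w p) k pre = c * Z m w k pre
  | 0, pre => by simp [Z_zero]
  | k + 1, pre => by
    simp only [Z_succ, Z_const_mul hw hc k, fun o => mul_rpow hc (Z_nonneg (m := m) hw k o)
      (z := m (pre.length + 1)), avg_mul_left]
    rw [mul_rpow (rpow_nonneg hc _) (avg_nonneg fun o => rpow_nonneg (Z_nonneg hw k _) _),
      ← rpow_mul hc, mul_one_div_cancel (hm _).ne', rpow_one]

lemma Z_const [Nonempty Ω] {c : ℝ} (hc : 0 ≤ c) :
    ∀ (k : ℕ) (pre : List Ω), Z m (fun _ => c) k pre = c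
  | 0, pre => Z_zero _ _
  | k + 1, pre => by
    simp only [Z_succ, Z_const hc k, avg_const]
    rw [← rpow_mul hc, mul_one_div_cancel (hm _).ne', rpow_one]

lemma log_Z_sub_le [Nonempty Ω] {w w' : List Ω → ℝ} (hw : ∀ p, 0 < w p) (hw' : ∀ p, 0 < w' p)
    {C : ℝ} (h : ∀ p, log (w p) - log (w' p) ≤ C) (k : ℕ) (pre : List Ω) :
    log (Z m w k pre) - log (Z m w' k pre) ≤ C := by
  have hle : ∀ p, w p ≤ exp C * w' p := fun p => by
    rw [← exp_log (hw p), ← exp_log (hw' p), ← exp_add]; exact exp_le_exp.2 (by linarith [h p])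
  have := (Z_mono hm (fun p => (hw p).le) hle k pre).trans_eq
    (Z_const_mul hm (fun p => (hw' p).le) (exp_pos C).le k pre)
  have h2 := log_le_log (Z_pos hw k pre) this
  rw [log_mul (exp_pos C).ne' (Z_pos hw' k pre).ne', log_exp] at h2
  linarith

lemma abs_log_Z_le [Nonempty Ω] {w : List Ω → ℝ} (hw : ∀ p, 0 < w p) {C : ℝ}
    (h : ∀ p, |log (w p)| ≤ C) (k : ℕ) (pre : List Ω) : |log (Z m w k pre)| ≤ C := by
  have h1 := log_Z_sub_le hm hw (fun _ => one_pos) (C := C)
    (fun p => by simpa using le_of_abs_le (h p)) k pre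
  have h2 := log_Z_sub_le hm (fun _ => one_pos) hw (C := C)
    (fun p => by simpa using neg_le.1 (neg_le_of_abs_le (h p))) k pre
  rw [Z_const hm zero_le_one, log_one] at h1 h2
  rw [abs_le]; constructor <;> linarith

omit hm in
lemma Z_equiv (e : Ω ≃ A) (w : List A → ℝ) :
    ∀ k pre, Z m (fun p => w (p.map e)) k pre = Z m w k (pre.map e)
  | 0, pre => by simp [Z_zero]
  | k + 1, pre => by
    simp only [Z_succ, Z_equiv e w k, List.map_append, List.map_cons, List.map_nil,
      List.length_map]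
    rw [avg_equiv e (fun a => Z m w k (pre.map e ++ [a]) ^ m (pre.length + 1))]

omit hm in
lemma Z_prod (e : Ω ≃ A × B) {F : List A → ℝ} {G : List B → ℝ} (hF : ∀ p, 0 ≤ F p)
    (hG : ∀ p, 0 ≤ G p) : ∀ k pre,
      Z m (fun p => F (p.map fun o => (e o).1) * G (p.map fun o => (e o).2)) k pre =
        Z m F k (pre.map fun o => (e o).1) * Z m G k (pre.map fun o => (e o).2)
  | 0, pre => by simp [Z_zero]
  | k + 1, pre => by
    simp only [Z_succ, Z_prod e hF hG k, List.map_append, List.map_cons, List.map_nil,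
      List.length_map]
    simp only [fun (a : List A) (b : List B) => mul_rpow (Z_nonneg (m := m) hF k a) (Z_nonneg (m := m) hG k b)
      (z := m (pre.length + 1))]
    rw [avg_equiv e fun o => Z m F k ((pre.map fun o => (e o).1) ++ [o.1]) ^ m (pre.length + 1) *
        Z m G k ((pre.map fun o => (e o).2) ++ [o.2]) ^ m (pre.length + 1),
      avg_mul (fun a => Z m F k ((pre.map fun o => (e o).1) ++ [a]) ^ m (pre.length + 1))
        (fun b => Z m G k ((pre.map fun o => (e o).2) ++ [b]) ^ m (pre.length + 1))]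
    exact mul_rpow (avg_nonneg fun a => rpow_nonneg (Z_nonneg (m := m) hF k _) _)
      (avg_nonneg fun b => rpow_nonneg (Z_nonneg (m := m) hG k _) _)

variable {ι : Type*} [Fintype ι] [DecidableEq ι] {β : ι → Type*} [∀ i, Fintype (β i)]

omit hm in
lemma Z_pi (e : Ω ≃ ∀ i, β i) {F : ∀ i, List (β i) → ℝ} (hF : ∀ i p, 0 ≤ F i p) : ∀ k pre,
      Z m (fun p => ∏ i, F i (p.map fun o => e o i)) k pre =
        ∏ i, Z m (F i) k (pre.map fun o => e o i)
  | 0, pre => by simp [Z_zero]
  | k + 1, pre => by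
    simp only [Z_succ, Z_pi e hF k, List.map_append, List.map_cons, List.map_nil, List.length_map]
    simp only [fun o : Ω => (finsetProd_rpow univ
      (fun i => Z m (F i) k ((pre.map fun o => e o i) ++ [e o i]))
      (fun i _ => Z_nonneg (m := m) (hF i) k _) (m (pre.length + 1))).symm]
    rw [avg_equiv e fun o => ∏ i,
        Z m (F i) k ((pre.map fun o => e o i) ++ [o i]) ^ m (pre.length + 1),
      avg_pi fun i a => Z m (F i) k ((pre.map fun o => e o i) ++ [a]) ^ m (pre.length + 1),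
      finsetProd_rpow univ _ fun i _ => avg_nonneg fun a => rpow_nonneg (Z_nonneg (m := m) (hF i) k _) _]

end Vale.Agent.P168.MP.Upper
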