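import Mathlib

/-! Power series with nonnegative coefficients, composed along lists. -/

namespace Vale.Agent.P168.MP.Upper

open Finset Real

/-- coefficients of `1 - (1 - s) ^ θ` -/
noncomputable def pc (θ : ℝ) (k : ℕ) : ℝ :=
  if k = 0 then 0 else (-1) ^ (k + 1) * Ring.choose θ k

/-- coefficients of `-log (1 - s) / m` -/
noncomputable def lc (m : ℝ) (k : ℕ) : ℝ := if k = 0 then 0 else 1 / (k * m)

lemma choose_succ_mul (θ : ℝ) (k : ℕ) :
    Ring.choose θ (k + 1) * ((k : ℝ) + 1) = Ring.choose θ k * (θ - k) := by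
  rw [Ring.choose_eq_smul, Ring.choose_eq_smul, descPochhammer_succ_right, Polynomial.smeval_mul,
    Polynomial.smeval_sub, Polynomial.smeval_X, Polynomial.smeval_natCast, Nat.factorial_succ]
  have : (k.factorial : ℝ) ≠ 0 := by exact_mod_cast k.factorial_ne_zero
  simp only [smul_eq_mul, Nat.cast_mul, Nat.cast_add, Nat.cast_one, pow_zero, pow_one,
    nsmul_eq_mul, mul_one]
  field_simp

lemma pc_nonneg {θ : ℝ} (h0 : 0 ≤ θ) (h1 : θ ≤ 1) (k : ℕ) : 0 ≤ pc θ k := by
  rcases k with _ | k
  · simp [pc]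
  rw [pc, if_neg k.succ_ne_zero]
  induction k with
  | zero => simpa [Ring.choose_one_right] using h0
  | succ k ih =>
    have h := choose_succ_mul θ (k + 1)
    push_cast at h
    have e : (-1 : ℝ) ^ (k + 1 + 1 + 1) * Ring.choose θ (k + 1 + 1) * ((k : ℝ) + 1 + 1) =
        (-1) ^ (k + 1 + 1) * Ring.choose θ (k + 1) * ((k : ℝ) + 1 - θ) := by
      rw [pow_succ (-1 : ℝ) (k + 1 + 1)]; linear_combination -(-1 : ℝ) ^ (k + 1 + 1) * h
    have hk : (0 : ℝ) ≤ (k : ℝ) + 1 - θ := by linarith [Nat.cast_nonneg (α := ℝ) k]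
    refine nonneg_of_mul_nonneg_left (b := (k : ℝ) + 1 + 1) ?_ (by positivity)
    rw [e]; exact mul_nonneg ih hk

lemma lc_nonneg {m : ℝ} (hm : 0 < m) (k : ℕ) : 0 ≤ lc m k := by
  unfold lc; split_ifs <;> positivity

lemma hasSum_pc (θ : ℝ) {s : ℝ} (hs : |s| < 1) :
    HasSum (fun k => pc θ k * s ^ k) (1 - (1 - s) ^ θ) := by
  have h := (Real.one_add_rpow_hasFPowerSeriesOnBall_zero (a := θ)).hasSum (y := -s) (by
    rw [← ENNReal.ofReal_one, Metric.eball_ofReal]; simpa using hs)
  simp only [binomialSeries_apply, List.ofFn_const, List.prod_replicate, smul_eq_mul,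
    zero_add] at h
  rw [← sub_eq_add_neg] at h
  refine ((hasSum_ite_eq 0 (1 : ℝ)).sub h).congr_fun fun k => ?_
  rcases k with _ | k
  · simp [pc]
  · rw [pc, if_neg k.succ_ne_zero, if_neg k.succ_ne_zero, neg_pow s]; ring

lemma hasSum_lc (m : ℝ) {s : ℝ} (hs : |s| < 1) :
    HasSum (fun k => lc m k * s ^ k) (-(log (1 - s)) / m) := by
  rw [← hasSum_nat_add_iff' 1]
  simp only [range_one, sum_singleton, lc, ↓reduceIte, zero_mul, sub_zero]
  refine ((hasSum_pow_div_log_of_abs_lt_one hs).div_const m).congr_fun fun k => ?_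
  rw [if_neg k.succ_ne_zero]; push_cast; field_simp

variable {ι : Type*}

lemma hasSum_fin_prod (a : ι → ℝ) {s : ℝ} (ha : HasSum a s) (hA : Summable fun i => |a i|) :
    ∀ n : ℕ, HasSum (fun f : Fin n → ι => ∏ j, a (f j)) (s ^ n) ∧
      Summable (fun f : Fin n → ι => |∏ j, a (f j)|)
  | 0 => by
    constructor
    · convert hasSum_fintype (fun f : Fin 0 → ι => ∏ j, a (f j)) using 1; simp
    · exact (hasSum_fintype _).summable
  | n + 1 => by
    obtain ⟨h1, h2⟩ := hasSum_fin_prod a ha hA n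
    set e := Fin.consEquiv fun _ : Fin (n + 1) => ι
    have hn : Summable fun p : ι × (Fin n → ι) => a p.1 * ∏ j, a (p.2 j) :=
      summable_mul_of_summable_norm (f := a) (g := fun f : Fin n → ι => ∏ j, a (f j))
        (by simpa [Real.norm_eq_abs] using hA) (by simpa only [Real.norm_eq_abs] using h2)
    refine ⟨?_, ?_⟩
    · rw [← e.hasSum_iff, pow_succ']
      refine (ha.mul h1 hn).congr_fun fun p => ?_
      simp [e, Fin.prod_univ_succ]
    · rw [← e.summable_iff]
      refine (Summable.mul_of_nonneg hA h2 (fun i => abs_nonneg _) fun f => abs_nonneg _).congr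
        fun p => ?_
      simp [e, Fin.prod_univ_succ, abs_mul, abs_prod]

lemma hasSum_list (c : ℕ → ℝ) (hc : ∀ k, 0 ≤ c k) (a : ι → ℝ) {s S T : ℝ} (ha : HasSum a s)
    (hA : HasSum (fun i => |a i|) S) (hT : HasSum (fun k => c k * s ^ k) T)
    (hS : Summable fun k => c k * S ^ k) :
    HasSum (fun L : List ι => c L.length * (L.map a).prod) T := by
  rw [← (List.equivSigmaTuple (α := ι)).symm.hasSum_iff]
  have e : ((fun L : List ι => c L.length * (L.map a).prod) ∘ List.equivSigmaTuple.symm) =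
      fun q : Σ n, Fin n → ι => c q.1 * ∏ j, a (q.2 j) := by
    funext q
    simp [List.map_ofFn, List.prod_ofFn]
  rw [e]
  have hA' : HasSum (fun i => |(fun i => |a i|) i|) S := hA.congr_fun fun i => abs_abs _
  have hsum : Summable fun q : Σ n, Fin n → ι => |c q.1 * ∏ j, a (q.2 j)| := by
    rw [summable_sigma_of_nonneg fun q => abs_nonneg _]
    refine ⟨fun n => ?_, hS.congr fun n => ?_⟩
    · simp only [abs_mul]
      exact (hasSum_fin_prod a ha hA.summable n).2.mul_left _
    · have h := ((hasSum_fin_prod (fun i => |a i|) hA hA'.summable n).1.mul_left (c n)).tsum_eq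
      rw [← h]
      exact tsum_congr fun f => by simp [abs_mul, abs_of_nonneg (hc n), abs_prod]
  have hq := hsum.of_abs
  have h2 := hq.hasSum.sigma fun n => ((hasSum_fin_prod a ha hA.summable n).1.mul_left (c n))
  rw [hT.unique h2]
  exact hq.hasSum

end Vale.Agent.P168.MP.Upper
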