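import Vale.Agent.P168.MP.Upper.ZBase
import Vale.Agent.P168.MP.Upper.Series

/-! Expansion of a nested power mean in an absolutely convergent series with nonnegative
coefficients, indexed by trees, of linear replica functionals. -/

namespace Vale.Agent.P168.MP.Upper

open Finset Real MeasureTheory

/-- trees of height `k` -/
def Tree : ℕ → Type
  | 0 => Unit
  | k + 1 => List (Tree k)

instance : Unique (Tree 0) := inferInstanceAs (Unique Unit)

/-- number of leaves -/
def leaves : (k : ℕ) → Tree k → ℕ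
  | 0, _ => 1
  | k + 1, L => (List.map (leaves k) L).sum

/-- coefficient of a tree hanging at level `R - k` -/
noncomputable def coef (R : ℕ) (m : ℕ → ℝ) : (k : ℕ) → Tree k → ℝ
  | 0, _ => 1
  | k + 1, L =>
      pc (m (R - (k + 1)) / m (R - k)) (List.length L) * (List.map (coef R m k) L).prod

/-- coefficient of a forest hanging at the root -/
noncomputable def coefTop (r : ℕ) (m : ℕ → ℝ) (L : List (Tree r)) : ℝ :=
  lc (m 1) L.length * (L.map (coef (r + 1) m r)).prod

/-- composition of functionals along a list -/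
def fo {T α : Type*} (g : T → (List α → ℝ) → ℝ) : List T → (List α → ℝ) → ℝ
  | [], F => F []
  | t :: L, F => g t fun a => fo g L fun b => F (a ++ b)

/-- product of `X` over the listed paths -/
def Pr {α : Type*} (X : α → ℝ) (ps : List α) : ℝ := (ps.map X).prod

variable {Ω A B : Type} [Fintype Ω] [Fintype A] [Fintype B] {m : ℕ → ℝ} {w : List Ω → ℝ}

/-- the replica functional of a tree -/
noncomputable def J (m : ℕ → ℝ) (w : List Ω → ℝ) :
    (k : ℕ) → Tree k → List Ω → (List (List Ω) → ℝ) → ℝ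
  | 0, _, pre, F => F [pre]
  | k + 1, L, pre, F =>
      fo (fun t G => ∑ o, trans m w k pre o * J m w k t (pre ++ [o]) G) L F

lemma J_zero (t : Tree 0) (pre : List Ω) (F : List (List Ω) → ℝ) : J m w 0 t pre F = F [pre] :=
  rfl

lemma J_succ (k : ℕ) (L : List (Tree k)) (pre : List Ω) (F : List (List Ω) → ℝ) :
    J m w (k + 1) L pre F =
      fo (fun t G => ∑ o, trans m w k pre o * J m w k t (pre ++ [o]) G) L F :=
  rfl

lemma abs_Pr {α : Type} (X : α → ℝ) : ∀ l : List α, |Pr X l| = Pr (fun a => |X a|) l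
  | [] => by simp [Pr]
  | a :: l => by
    have := abs_Pr X l
    simp only [Pr, List.map_cons, List.prod_cons] at this ⊢
    rw [abs_mul, this]

/-- expectations over finitely many lists of length `n` -/
def IsExp {α : Type} (n : ℕ) (Φ : (List α → ℝ) → ℝ) : Prop :=
  ∃ (ι : Type) (_ : Fintype ι) (v : ι → ℝ) (p : ι → List α),
    (∀ i, 0 ≤ v i) ∧ ∑ i, v i = 1 ∧ (∀ i, (p i).length = n) ∧ ∀ F, Φ F = ∑ i, v i * F (p i)

namespace IsExp

variable {α : Type} {n : ℕ} {Φ : (List α → ℝ) → ℝ}

lemma mono (h : IsExp n Φ) {F G : List α → ℝ} (hFG : ∀ l, F l ≤ G l) : Φ F ≤ Φ G := by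
  obtain ⟨ι, _, v, p, hv, -, -, e⟩ := h
  rw [e, e]; exact sum_le_sum fun i _ => mul_le_mul_of_nonneg_left (hFG _) (hv i)

lemma const (h : IsExp n Φ) (c : ℝ) : Φ (fun _ => c) = c := by
  obtain ⟨ι, _, v, p, -, h1, -, e⟩ := h
  rw [e, ← sum_mul, h1, one_mul]

lemma const_mul (h : IsExp n Φ) (c : ℝ) (F : List α → ℝ) :
    Φ (fun l => c * F l) = c * Φ F := by
  obtain ⟨ι, _, v, p, -, -, -, e⟩ := h
  simp only [e, mul_sum, mul_left_comm]

lemma mul_const (h : IsExp n Φ) (c : ℝ) (F : List α → ℝ) :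
    Φ (fun l => F l * c) = Φ F * c := by
  simp only [mul_comm _ c, h.const_mul]

lemma add (h : IsExp n Φ) (F G : List α → ℝ) : Φ (fun l => F l + G l) = Φ F + Φ G := by
  obtain ⟨ι, _, v, p, -, -, -, e⟩ := h
  simp only [e, mul_add, sum_add_distrib]

lemma sum (h : IsExp n Φ) {κ : Type*} (s : Finset κ) (F : κ → List α → ℝ) :
    Φ (fun l => ∑ j ∈ s, F j l) = ∑ j ∈ s, Φ (F j) := by
  obtain ⟨ι, _, v, p, -, -, -, e⟩ := h
  simp only [e, mul_sum]; exact sum_comm

lemma abs_le (h : IsExp n Φ) (F : List α → ℝ) : |Φ F| ≤ Φ (fun l => |F l|) := by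
  obtain ⟨ι, _, v, p, hv, -, -, e⟩ := h
  rw [e, e]
  refine (abs_sum_le_sum_abs _ _).trans (le_of_eq (sum_congr rfl fun i _ => ?_))
  rw [abs_mul, abs_of_nonneg (hv i)]

lemma bound (h : IsExp n Φ) {F : List α → ℝ} {C : ℝ} (hF : ∀ l, |F l| ≤ C) : |Φ F| ≤ C :=
  (h.abs_le F).trans ((h.mono hF).trans_eq (h.const C))

lemma scale (h : IsExp n Φ) (c : ℝ) (X : α → ℝ) :
    Φ (Pr fun a => c * X a) = c ^ n * Φ (Pr X) := by
  obtain ⟨ι, _, v, p, -, -, hn, e⟩ := h
  rw [e, e, mul_sum]
  refine sum_congr rfl fun i _ => ?_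
  rw [Pr, Pr, List.prod_map_mul, List.map_const', List.prod_replicate, hn]
  ring

lemma integral (h : IsExp n Φ) {D : Type*} [MeasurableSpace D] {μ : Measure D}
    {F : D → List α → ℝ} (hF : ∀ l, Integrable (fun d => F d l) μ) :
    Integrable (fun d => Φ (F d)) μ ∧ ∫ d, Φ (F d) ∂μ = Φ fun l => ∫ d, F d l ∂μ := by
  obtain ⟨ι, _, v, p, -, -, -, e⟩ := h
  simp only [e]
  refine ⟨integrable_finsetSum _ fun i _ => (hF _).const_mul _, ?_⟩
  rw [integral_finsetSum _ fun i _ => (hF _).const_mul _]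
  exact sum_congr rfl fun i _ => integral_const_mul _ _

end IsExp

lemma isExp_fo {T α : Type} {g : T → (List α → ℝ) → ℝ} {d : T → ℕ}
    (h : ∀ t, IsExp (d t) (g t)) : ∀ L : List T, IsExp (L.map d).sum (fo g L)
  | [] => ⟨Unit, inferInstance, fun _ => 1, fun _ => [], fun _ => zero_le_one, by simp,
      fun _ => rfl, fun F => by simp [fo]⟩
  | t :: L => by
    obtain ⟨ι, _, v, p, hv, h1, hn, e⟩ := h t
    obtain ⟨κ, _, u, q, hu, h2, hn2, e2⟩ := isExp_fo h L
    refine ⟨ι × κ, inferInstance, fun i => v i.1 * u i.2, fun i => p i.1 ++ q i.2,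
      fun i => mul_nonneg (hv _) (hu _), ?_, fun i => by simp [hn, hn2], fun F => ?_⟩
    · rw [Fintype.sum_prod_type]; simp [← mul_sum, h2, h1]
    · rw [fo, e, Fintype.sum_prod_type]
      simp only [e2, mul_sum, mul_assoc]

lemma isExp_step [Nonempty Ω] (hw : ∀ p, 0 < w p) (k : ℕ) (pre : List Ω) {n : ℕ}
    {Φ : List Ω → (List (List Ω) → ℝ) → ℝ} (h : ∀ q, IsExp n (Φ q)) :
    IsExp n fun G => ∑ o, trans m w k pre o * Φ (pre ++ [o]) G := by
  choose ι inst v p hv h1 hn e using fun o => h (pre ++ [o])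
  refine ⟨(o : Ω) × ι o, inferInstance, fun i => trans m w k pre i.1 * v i.1 i.2,
    fun i => p i.1 i.2, fun i => mul_nonneg (trans_nonneg hw k pre _) (hv _ _), ?_,
    fun i => hn _ _, fun F => ?_⟩
  · rw [Fintype.sum_sigma]; simp only [← mul_sum, h1, mul_one, trans_sum hw]
  · rw [Fintype.sum_sigma]; simp only [e, mul_sum, mul_assoc]

lemma isExp_J [Nonempty Ω] (hw : ∀ p, 0 < w p) :
    ∀ (k : ℕ) (t : Tree k) (pre : List Ω), IsExp (leaves k t) (J m w k t pre)
  | 0, t, pre => ⟨Unit, inferInstance, fun _ => 1, fun _ => [pre], fun _ => zero_le_one, by simp,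
      fun _ => by simp [leaves], fun F => by simp [J_zero]⟩
  | k + 1, L, pre => by
    have := isExp_fo (fun t => isExp_step (m := m) hw k pre fun q => isExp_J hw k t q) L
    rw [leaves]
    exact this

lemma fo_Pr {T α : Type} {g : T → (List α → ℝ) → ℝ} {d : T → ℕ} (h : ∀ t, IsExp (d t) (g t))
    (X : α → ℝ) : ∀ L : List T, fo g L (Pr X) = (L.map fun t => g t (Pr X)).prod
  | [] => by simp [fo, Pr]
  | t :: L => by
    rw [fo, List.map_cons, List.prod_cons, ← fo_Pr h X L]
    simp only [Pr, List.map_append, List.prod_append]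
    rw [← (h t).mul_const]
    congr 1
    funext a
    exact (isExp_fo h L).const_mul _ _

/-! ### the expansion -/

/-- `1 - ratio ^ m l` at a prefix of length `l` -/
noncomputable def P (m : ℕ → ℝ) (w X : List Ω → ℝ) (k : ℕ) (pre : List Ω) : ℝ :=
  1 - (Z m (fun p => w p * (1 - X p)) k pre / Z m w k pre) ^ m pre.length

/-- the tilted average of `P` over the children -/
noncomputable def Q (m : ℕ → ℝ) (w X : List Ω → ℝ) (k : ℕ) (pre : List Ω) : ℝ :=
  ∑ o, trans m w k pre o * P m w X k (pre ++ [o])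

omit [Fintype Ω] in
lemma wX_pos (hw : ∀ p, 0 < w p) {X : List Ω → ℝ} (hX : ∀ p, |X p| < 1) (p : List Ω) :
    0 < w p * (1 - X p) :=
  mul_pos (hw p) (by have := (abs_lt.1 (hX p)).2; linarith)

variable [Nonempty Ω]

lemma ratio_succ (hw : ∀ p, 0 < w p) {X : List Ω → ℝ}
    (hX : ∀ p, |X p| < 1) (k : ℕ) (pre : List Ω) :
    0 < 1 - Q m w X k pre ∧
    Z m (fun p => w p * (1 - X p)) (k + 1) pre / Z m w (k + 1) pre =
      (1 - Q m w X k pre) ^ (1 / m (pre.length + 1)) := by
  set w' := fun p => w p * (1 - X p) with hw'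
  have hp : ∀ p, 0 < w' p := wX_pos hw hX
  set e := m (pre.length + 1)
  have hd := trans_den_pos (m := m) hw k pre
  have hd' := trans_den_pos (m := m) hp k pre
  have key : 1 - Q m w X k pre = (∑ o, Z m w' k (pre ++ [o]) ^ e) /
      ∑ o, Z m w k (pre ++ [o]) ^ e := by
    have h1 : Q m w X k pre = 1 - ∑ o, trans m w k pre o *
        (Z m w' k (pre ++ [o]) / Z m w k (pre ++ [o])) ^ e := by
      rw [← trans_sum (m := m) hw k pre, ← sum_sub_distrib]
      refine sum_congr rfl fun o _ => ?_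
      rw [P, List.length_append, List.length_singleton]
      ring
    rw [h1, sub_sub_cancel, Finset.sum_div]
    refine sum_congr rfl fun o _ => ?_
    have hz := Z_pos (m := m) hw k (pre ++ [o])
    rw [trans, div_rpow (Z_pos hp k _).le hz.le]
    simp only [e]
    have := rpow_pos_of_pos hz (m (pre.length + 1))
    field_simp
  refine ⟨by rw [key]; exact div_pos hd' hd, ?_⟩
  rw [key, Z_succ, Z_succ, ← div_rpow (avg_nonneg fun o => rpow_nonneg (Z_pos hp k _).le _)
    (avg_nonneg fun o => rpow_nonneg (Z_pos hw k _).le _), avg, avg,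
    div_div_div_cancel_right₀ (card_pos_real (Ω := Ω)).ne']

lemma coef_nonneg {R : ℕ} (E : Exps R m) : ∀ (k : ℕ), k < R → ∀ t : Tree k, 0 ≤ coef R m k t
  | 0, _, _ => by rw [coef]; exact zero_le_one
  | k + 1, hk, L => by
    rw [coef]
    refine mul_nonneg (pc_nonneg (div_pos (E.pos _) (E.pos _)).le ?_ _) (List.prod_nonneg ?_)
    · rw [div_le_one (E.pos _)]
      have := E.mono (R - (k + 1)) (by omega) (by omega)
      rwa [show R - (k + 1) + 1 = R - k by omega] at this
    · intro x hx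
      obtain ⟨t, -, rfl⟩ := List.mem_map.1 hx
      exact coef_nonneg E k (by omega) t

/-- forests below a prefix, given the expansion at its children -/
lemma hasSum_forest {R : ℕ} (E : Exps R m) (hw : ∀ p, 0 < w p) {k : ℕ} (hk : k < R)
    {pre : List Ω}
    (ih : ∀ o, ∀ X : List Ω → ℝ, (∀ p, |X p| < 1) →
      HasSum (fun t => coef R m k t * J m w k t (pre ++ [o]) (Pr X)) (P m w X k (pre ++ [o])))
    {c : ℕ → ℝ} (hc : ∀ j, 0 ≤ c j) {φ : ℝ → ℝ}
    (hφ : ∀ s, |s| < 1 → HasSum (fun j => c j * s ^ j) (φ s))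
    {X : List Ω → ℝ} (hX : ∀ p, |X p| < 1) :
    HasSum (fun L : List (Tree k) => c L.length * (L.map (coef R m k)).prod *
      J m w (k + 1) L pre (Pr X)) (φ (Q m w X k pre)) := by
  let g := fun (t : Tree k) G => ∑ o, trans m w k pre o * J m w k t (pre ++ [o]) G
  have hg : ∀ t, IsExp (leaves k t) (g t) := fun t =>
    isExp_step hw k pre fun q => isExp_J hw k t q
  have main : ∀ Y : List Ω → ℝ, (∀ p, |Y p| < 1) →
      HasSum (fun t => coef R m k t * g t (Pr Y)) (Q m w Y k pre) := by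
    intro Y hY
    refine (hasSum_sum fun o _ => (ih o Y hY).mul_left (trans m w k pre o)).congr_fun fun t => ?_
    simp only [g, mul_sum, mul_left_comm]
  set a := fun t => coef R m k t * g t (Pr X) with ha
  set a' := fun t => coef R m k t * g t (Pr fun p => |X p|) with ha'
  have hX' : ∀ p, |(fun p => |X p|) p| < 1 := fun p => by simpa using hX p
  have h' := main _ hX'
  have hle : ∀ t, |a t| ≤ a' t := fun t => by
    rw [ha, ha', abs_mul, abs_of_nonneg (coef_nonneg E k hk t)]
    refine mul_le_mul_of_nonneg_left (((hg t).abs_le _).trans ((hg t).mono fun l => ?_))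
      (coef_nonneg E k hk t)
    rw [abs_Pr]
  have hA : Summable fun t => |a t| := h'.summable.of_nonneg_of_le (fun t => abs_nonneg _) hle
  have hS1 : abs (∑' t, |a t|) < 1 := by
    rw [abs_of_nonneg (tsum_nonneg fun t => abs_nonneg _)]
    refine (hA.tsum_le_tsum hle h'.summable).trans_lt ?_
    rw [h'.tsum_eq]
    have := (ratio_succ (m := m) hw hX' k pre).1
    linarith
  have hQ : |Q m w X k pre| < 1 := by
    rw [← (main X hX).tsum_eq]
    refine lt_of_le_of_lt ?_ ((le_abs_self _).trans_lt hS1)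
    simpa [Real.norm_eq_abs] using norm_tsum_le_tsum_norm (f := a) (by simpa using hA)
  refine (hasSum_list c hc a (main X hX) hA.hasSum (hφ _ hQ) (hφ _ hS1).summable).congr_fun
    fun L => ?_
  rw [J_succ, fo_Pr hg, ha, List.prod_map_mul, mul_assoc]

lemma hasSum_P {R : ℕ} (E : Exps R m) (hw : ∀ p, 0 < w p) :
    ∀ (k : ℕ) (pre : List Ω), pre.length + k = R → 1 ≤ pre.length →
      ∀ X : List Ω → ℝ, (∀ p, |X p| < 1) →
        HasSum (fun t => coef R m k t * J m w k t pre (Pr X)) (P m w X k pre)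
  | 0, pre, hl, _, X, hX => by
    have : P m w X 0 pre = X pre := by
      rw [P, Z_zero, Z_zero, show pre.length = R by omega, E.top, rpow_one,
        mul_div_cancel_left₀ _ (hw pre).ne', sub_sub_cancel]
    rw [this]
    convert hasSum_unique (fun t => coef R m 0 t * J m w 0 t pre (Pr X)) using 1
    simp [coef, J_zero, Pr]
  | k + 1, pre, hl, h1, X, hX => by
    have hk : k < R := by omega
    obtain ⟨hpos, hr⟩ := ratio_succ hw hX k pre
    have e : P m w X (k + 1) pre =
        1 - (1 - Q m w X k pre) ^ (m (R - (k + 1)) / m (R - k)) := by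
      rw [P, hr, ← rpow_mul hpos.le, show pre.length = R - (k + 1) by omega,
        show R - (k + 1) + 1 = R - k by omega, one_div_mul_eq_div]
    rw [e]
    refine (hasSum_forest E hw hk (fun o Y hY => hasSum_P E hw k (pre ++ [o])
      (by simp; omega) (by simp) Y hY) (fun j => pc_nonneg (div_pos (E.pos _) (E.pos _)).le ?_ j)
      (φ := fun s => 1 - (1 - s) ^ (m (R - (k + 1)) / m (R - k)))
      (fun s hs => hasSum_pc _ hs) hX).congr_fun fun L => ?_
    · rw [div_le_one (E.pos _)]
      have := E.mono (R - (k + 1)) (by omega) (by omega)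
      rwa [show R - (k + 1) + 1 = R - k by omega] at this
    · rfl

lemma coefTop_nonneg {r : ℕ} (E : Exps (r + 1) m) (L : List (Tree r)) : 0 ≤ coefTop r m L := by
  refine mul_nonneg (lc_nonneg (E.pos 1) _) (List.prod_nonneg fun x hx => ?_)
  obtain ⟨t, -, rfl⟩ := List.mem_map.1 hx
  exact coef_nonneg E r (Nat.lt_succ_self r) t

/-- the expansion of the log nested functional -/
theorem hasSum_log {r : ℕ} (E : Exps (r + 1) m) (hw : ∀ p, 0 < w p) {y : ℝ} {X : List Ω → ℝ}
    (hX : ∀ p, |y * X p| < 1) :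
    HasSum (fun L : List (Tree r) =>
        coefTop r m L * y ^ leaves (r + 1) L * J m w (r + 1) L [] (Pr X))
      (log (Z m w (r + 1) []) - log (Z m (fun p => w p * (1 - y * X p)) (r + 1) [])) := by
  obtain ⟨hpos, hr⟩ := ratio_succ hw hX r []
  have e : log (Z m w (r + 1) []) - log (Z m (fun p => w p * (1 - y * X p)) (r + 1) []) =
      -log (1 - Q m w (fun p => y * X p) r []) / m 1 := by
    have := congrArg log hr
    rw [log_div (Z_pos (wX_pos hw hX) _ _).ne' (Z_pos hw _ _).ne', log_rpow hpos] at this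
    simp only [List.length_nil, zero_add] at this
    rw [neg_div, div_eq_inv_mul, ← one_div]
    linarith
  rw [e]
  refine (hasSum_forest E hw (Nat.lt_succ_self r) (fun o Y hY => hasSum_P E hw r ([] ++ [o])
    (by simp [add_comm]) (by simp) Y hY) (lc_nonneg (E.pos 1))
    (φ := fun s => -log (1 - s) / m 1) (fun s hs => hasSum_lc _ hs) hX).congr_fun fun L => ?_
  rw [(isExp_J hw (r + 1) L []).scale, coefTop]
  ring

end Vale.Agent.P168.MP.Upper
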