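import Vale.Agent.P168.TrialValues
import Vale.Agent.P168.MP.Upper.ZBase

/-! Hypotheses of the upper bound, clause factors with some slots read from the configuration and
the others from messages, and elementary bounds on them. -/

namespace Vale.Agent.P168.MP.Upper

open Finset Real MeasureTheory Filter Topology

variable {N K : ℕ} {B Ω₀ : Type}

/-- the hypotheses of the upper bound: `a` may depend on `(b, f)`, whose law is a product -/
structure Hyp (μ : Measure (Clause K)) (β : Measure ℝ) (η : Measure (ℝ × ℝ)) (ρ : Measure ℝ) :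
    Prop where
  pμ : IsProbabilityMeasure μ
  pβ : IsProbabilityMeasure β
  pη : IsProbabilityMeasure η
  pρ : IsProbabilityMeasure ρ
  marg : μ.map (fun c => (c.1.2, c.2)) = β.prod (Measure.pi fun _ : Fin K => η)
  ha : ∀ᵐ c ∂μ, 0 < c.1.1
  hb : ∀ᵐ b ∂β, |b| < 1
  hf : ∀ᵐ p ∂η, |p.1| ≤ 1 ∧ |p.2| ≤ 1
  hh : Integrable id ρ
  hθ : ∀ σ : Fin K → Bool, Integrable (fun c => theta c σ) μ
  hpos : ∀ n : ℕ, 1 ≤ n → 0 ≤ ∫ b, (-b) ^ n ∂β

/-- the total size of an interaction -/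
noncomputable def cb (c : Clause K) : ℝ := ∑ τ : Fin K → Bool, |theta c τ|

variable {μ : Measure (Clause K)} {β : Measure ℝ} {η : Measure (ℝ × ℝ)} {ρ : Measure ℝ}

lemma measurable_bf : Measurable fun c : Clause K => (c.1.2, c.2) := by fun_prop

lemma Hyp.ae_bf (H : Hyp μ β η ρ) {p : ℝ × (Fin K → ℝ × ℝ) → Prop}
    (h : ∀ᵐ q ∂β.prod (Measure.pi fun _ : Fin K => η), p q) : ∀ᵐ c ∂μ, p (c.1.2, c.2) := by
  rw [← H.marg] at h
  exact ae_of_ae_map measurable_bf.aemeasurable h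

lemma Hyp.valid (H : Hyp μ β η ρ) : ∀ᵐ c ∂μ, P168.Valid c := by
  have := H.pβ; have := H.pη
  have h1 : ∀ᵐ q ∂β.prod (Measure.pi fun _ : Fin K => η), |q.1| < 1 :=
    Measure.quasiMeasurePreserving_fst.ae H.hb
  have h2 : ∀ᵐ q ∂β.prod (Measure.pi fun _ : Fin K => η), ∀ j, |(q.2 j).1| ≤ 1 ∧ |(q.2 j).2| ≤ 1 :=
    Measure.quasiMeasurePreserving_snd.ae (ae_all_iff.2 fun j =>
      (Measure.tendsto_eval_ae_ae (μ := fun _ : Fin K => η) (i := j)).eventually H.hf)
  filter_upwards [H.ha, H.ae_bf (h1.and h2)] with c a b using ⟨a, b.1, b.2⟩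

lemma Hyp.valid_pi (H : Hyp μ β η ρ) (n : ℕ) :
    ∀ᵐ w ∂Measure.pi (fun _ : Fin n => μ), ∀ k, P168.Valid (w k) := by
  have := H.pμ
  exact ae_all_iff.2 fun k =>
    (Measure.tendsto_eval_ae_ae (μ := fun _ : Fin n => μ) (i := k)).eventually H.valid

lemma Hyp.integrable_cb (H : Hyp μ β η ρ) : Integrable cb μ :=
  integrable_finsetSum _ fun τ _ => (H.hθ τ).abs

lemma measurable_cb : Measurable (cb (K := K)) :=
  Finset.measurable_sum _ fun τ _ => (measurable_theta τ).abs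

lemma cb_nonneg (c : Clause K) : 0 ≤ cb c := sum_nonneg fun _ _ => abs_nonneg _

lemma abs_theta_le_cb (c : Clause K) (τ : Fin K → Bool) : |theta c τ| ≤ cb c :=
  single_le_sum (f := fun τ => |theta c τ|) (fun _ _ => abs_nonneg _) (mem_univ τ)

/-- product of the factors: slots in `S` read the configuration, the others a message -/
noncomputable def Xs (ξ : Ω₀ → List B → ℝ) (f : Fin K → ℝ × ℝ) (ch : Fin K → Fin N × Ω₀)
    (S : Fin K → Bool) (σ : Fin N → Bool) (bs : Fin K → List B) : ℝ :=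
  ∏ j, if S j then fval (f j) (σ (ch j).1) else fmean (f j) (ξ (ch j).2 (bs j))

/-- the clause factor -/
noncomputable def Cs (ξ : Ω₀ → List B → ℝ) (c : Clause K) (ch : Fin K → Fin N × Ω₀)
    (S : Fin K → Bool) (σ : Fin N → Bool) (bs : Fin K → List B) : ℝ :=
  c.1.1 * (1 + c.1.2 * Xs ξ c.2 ch S σ bs)

variable {ξ : Ω₀ → List B → ℝ}

lemma Xs_comb (hξ : ∀ o l, |ξ o l| ≤ 1) (ch : Fin K → Fin N × Ω₀) (S : Fin K → Bool)
    (σ : Fin N → Bool) (bs : Fin K → List B) :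
    ∃ v : (Fin K → Bool) → ℝ, (∀ τ, 0 ≤ v τ) ∧ ∑ τ, v τ = 1 ∧
      ∀ f : Fin K → ℝ × ℝ, Xs ξ f ch S σ bs = ∑ τ, v τ * ∏ j, fval (f j) (τ j) := by
  let u : Fin K → Bool → ℝ := fun j s =>
    if S j then (if s = σ (ch j).1 then 1 else 0) else msgWeight (ξ (ch j).2 (bs j)) s
  refine ⟨fun τ => ∏ j, u j (τ j), fun τ => prod_nonneg fun j _ => ?_, ?_, fun f => ?_⟩
  · simp only [u]; split_ifs
    exacts [zero_le_one, le_rfl, abs_le_one_iff_msg (hξ _ _) _]
  · rw [← Fintype.prod_sum u]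
    refine prod_eq_one fun j _ => ?_
    simp only [u]
    split_ifs
    · simp
    · exact sum_msgWeight _
  · simp only [← prod_mul_distrib]
    rw [← Fintype.prod_sum fun j s => u j s * fval (f j) s, Xs]
    refine prod_congr rfl fun j _ => ?_
    simp only [u]
    split_ifs
    · simp
    · rw [← sum_fval_msg]; simp only [mul_comm]

lemma abs_Xs_le (hξ : ∀ o l, |ξ o l| ≤ 1) {f : Fin K → ℝ × ℝ}
    (hf : ∀ j, |(f j).1| ≤ 1 ∧ |(f j).2| ≤ 1) (ch : Fin K → Fin N × Ω₀) (S : Fin K → Bool)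
    (σ : Fin N → Bool) (bs : Fin K → List B) : |Xs ξ f ch S σ bs| ≤ 1 := by
  rw [Xs, abs_prod]
  refine prod_le_one (fun j _ => abs_nonneg _) fun j _ => ?_
  split_ifs
  · exact abs_fval_le (hf j) _
  · exact abs_fmean_le (hf j) (hξ _ _)

lemma abs_tbX_lt (hξ : ∀ o l, |ξ o l| ≤ 1) {c : Clause K} (hc : P168.Valid c) {t : ℝ} (ht : |t| ≤ 1)
    (ch : Fin K → Fin N × Ω₀) (S : Fin K → Bool) (σ : Fin N → Bool) (bs : Fin K → List B) :
    |t * c.1.2 * Xs ξ c.2 ch S σ bs| < 1 := by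
  rw [abs_mul, abs_mul]
  have h1 := mul_le_of_le_one_right (mul_nonneg (abs_nonneg t) (abs_nonneg c.1.2))
    (abs_Xs_le hξ hc.2.2 ch S σ bs)
  have h2 := mul_le_of_le_one_left (abs_nonneg c.1.2) ht
  linarith [hc.2.1]

/-- extreme configurations of an interaction -/
lemma exists_extremes (hξ : ∀ o l, |ξ o l| ≤ 1) (c : Clause K) :
    ∃ τ τ' : Fin K → Bool, ∀ (ch : Fin K → Fin N × Ω₀) S σ bs,
      c.1.2 * Xs ξ c.2 ch S σ bs ≤ c.1.2 * ∏ j, fval (c.2 j) (τ j) ∧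
      c.1.2 * ∏ j, fval (c.2 j) (τ' j) ≤ c.1.2 * Xs ξ c.2 ch S σ bs := by
  obtain ⟨τ, -, hτ⟩ := exists_max_image (univ : Finset (Fin K → Bool))
    (fun τ => c.1.2 * ∏ j, fval (c.2 j) (τ j)) univ_nonempty
  obtain ⟨τ', -, hτ'⟩ := exists_min_image (univ : Finset (Fin K → Bool))
    (fun τ => c.1.2 * ∏ j, fval (c.2 j) (τ j)) univ_nonempty
  refine ⟨τ, τ', fun ch S σ bs => ?_⟩
  obtain ⟨v, hv, h1, hX⟩ := Xs_comb hξ ch S σ bs
  rw [hX, mul_sum]
  constructor
  · calc _ ≤ ∑ κ, v κ * (c.1.2 * ∏ j, fval (c.2 j) (τ j)) := sum_le_sum fun κ _ => by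
          rw [mul_left_comm]; exact mul_le_mul_of_nonneg_left (hτ κ (mem_univ _)) (hv κ)
      _ = _ := by rw [← sum_mul, h1, one_mul]
  · calc _ = ∑ κ, v κ * (c.1.2 * ∏ j, fval (c.2 j) (τ' j)) := by rw [← sum_mul, h1, one_mul]
      _ ≤ _ := sum_le_sum fun κ _ => by
          rw [mul_left_comm (c.1.2)]
          exact mul_le_mul_of_nonneg_left (hτ' κ (mem_univ _)) (hv κ)

lemma theta_eq {c : Clause K} (hc : P168.Valid c) (τ : Fin K → Bool) :
    theta c τ = log c.1.1 + log (1 + c.1.2 * ∏ j, fval (c.2 j) (τ j)) := by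
  have h := (abs_lt.1 (show |c.1.2 * ∏ j, fval (c.2 j) (τ j)| < 1 by
    rw [abs_mul]
    exact lt_of_le_of_lt (mul_le_of_le_one_right (abs_nonneg _) (abs_prod_fval_le hc τ)) hc.2.1)).1
  rw [theta, log_mul hc.1.ne' (by linarith)]

/-- the oscillation is monotone in `t` -/
lemma log_diff_le (hξ : ∀ o l, |ξ o l| ≤ 1) {c : Clause K} (hc : P168.Valid c) {t : ℝ} (ht0 : 0 ≤ t)
    (ht1 : t ≤ 1) (ch ch' : Fin K → Fin N × Ω₀) (S S' : Fin K → Bool) (σ σ' : Fin N → Bool)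
    (bs bs' : Fin K → List B) :
    log (1 + t * c.1.2 * Xs ξ c.2 ch S σ bs) - log (1 + t * c.1.2 * Xs ξ c.2 ch' S' σ' bs') ≤
      2 * cb c := by
  have ht : |t| ≤ 1 := by rwa [abs_of_nonneg ht0]
  obtain ⟨τ, τ', hτ⟩ := exists_extremes (N := N) hξ c
  have hu := hτ ch S σ bs
  have hv := hτ ch' S' σ' bs'
  have hvu := (hτ ch S σ bs).2.trans hu.1
  have hX := (abs_lt.1 (abs_tbX_lt hξ hc ht ch S σ bs)).1
  set u := c.1.2 * ∏ j, fval (c.2 j) (τ j)
  set v := c.1.2 * ∏ j, fval (c.2 j) (τ' j) with hvd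
  have hb : ∀ κ : Fin K → Bool, |c.1.2 * ∏ j, fval (c.2 j) (κ j)| < 1 := fun κ => by
    rw [abs_mul]
    exact lt_of_le_of_lt (mul_le_of_le_one_right (abs_nonneg _) (abs_prod_fval_le hc κ)) hc.2.1
  have hu1 : 0 < 1 + u := by linarith [(abs_lt.1 (hb τ)).1]
  have hv1 : 0 < 1 + v := by linarith [(abs_lt.1 (hb τ')).1]
  have htv : 0 < 1 + t * v := by
    rcases le_total 0 v with h | h
    · linarith [mul_nonneg ht0 h]
    · linarith [mul_le_mul_of_nonpos_right ht1 h]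
  have htu : 0 < 1 + t * u := by linarith [mul_le_mul_of_nonneg_left hvu ht0]
  have key : (1 + t * u) * (1 + v) ≤ (1 + t * v) * (1 + u) := by
    linarith [mul_nonneg (sub_nonneg.2 hvu) (sub_nonneg.2 ht1)]
  have h1 : log (1 + t * c.1.2 * Xs ξ c.2 ch S σ bs) ≤ log (1 + t * u) :=
    log_le_log (by linarith) (by rw [mul_assoc]; linarith [mul_le_mul_of_nonneg_left hu.1 ht0])
  have h2 : log (1 + t * v) ≤ log (1 + t * c.1.2 * Xs ξ c.2 ch' S' σ' bs') :=
    log_le_log htv (by rw [mul_assoc t]; linarith [mul_le_mul_of_nonneg_left hv.2 ht0])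
  have h3 := log_le_log (mul_pos htu hv1) key
  rw [log_mul htu.ne' hv1.ne', log_mul htv.ne' hu1.ne'] at h3
  have h4 : log (1 + u) - log (1 + v) = theta c τ - theta c τ' := by
    rw [theta_eq hc, theta_eq hc]; ring
  linarith [le_abs_self (theta c τ), neg_abs_le (theta c τ'), abs_theta_le_cb c τ,
    abs_theta_le_cb c τ']

lemma Cs_pos (hξ : ∀ o l, |ξ o l| ≤ 1) {c : Clause K} (hc : P168.Valid c) (ch : Fin K → Fin N × Ω₀)
    (S : Fin K → Bool) (σ : Fin N → Bool) (bs : Fin K → List B) : 0 < Cs ξ c ch S σ bs := by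
  have := (abs_lt.1 (abs_tbX_lt hξ hc (t := 1) (by simp) ch S σ bs)).1
  rw [one_mul] at this
  exact mul_pos hc.1 (by linarith)

lemma abs_log_Cs_le (hξ : ∀ o l, |ξ o l| ≤ 1) {c : Clause K} (hc : P168.Valid c)
    (ch : Fin K → Fin N × Ω₀) (S : Fin K → Bool) (σ : Fin N → Bool) (bs : Fin K → List B) :
    |log (Cs ξ c ch S σ bs)| ≤ cb c := by
  obtain ⟨τ, τ', hτ⟩ := exists_extremes (N := N) hξ c
  obtain ⟨h1, h2⟩ := hτ ch S σ bs
  have hp : ∀ κ : Fin K → Bool, 0 < c.1.1 * (1 + c.1.2 * ∏ j, fval (c.2 j) (κ j)) := fun κ => by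
    rw [← exp_theta hc]; exact exp_pos _
  have ha : log (Cs ξ c ch S σ bs) ≤ theta c τ :=
    log_le_log (Cs_pos hξ hc ch S σ bs) (mul_le_mul_of_nonneg_left (by linarith) hc.1.le)
  have hb : theta c τ' ≤ log (Cs ξ c ch S σ bs) :=
    log_le_log (hp τ') (mul_le_mul_of_nonneg_left (by linarith) hc.1.le)
  rw [abs_le]
  constructor <;>
    linarith [le_abs_self (theta c τ), neg_abs_le (theta c τ'), abs_theta_le_cb c τ,
      abs_theta_le_cb c τ']

@[fun_prop]
lemma measurable_fmean (x : ℝ) : Measurable fun p : ℝ × ℝ => fmean p x := by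
  unfold fmean; fun_prop

@[fun_prop]
lemma measurable_fval' (s : Bool) : Measurable fun p : ℝ × ℝ => fval p s := by
  unfold fval; cases s <;> simp <;> fun_prop

lemma measurable_Xs (ξ : Ω₀ → List B → ℝ) (ch : Fin K → Fin N × Ω₀) (S : Fin K → Bool)
    (σ : Fin N → Bool) (bs : Fin K → List B) :
    Measurable fun f : Fin K → ℝ × ℝ => Xs ξ f ch S σ bs := by
  unfold Xs
  refine Finset.measurable_prod _ fun j _ => ?_
  split_ifs <;> fun_prop

lemma measurable_Cs (ξ : Ω₀ → List B → ℝ) (ch : Fin K → Fin N × Ω₀) (S : Fin K → Bool)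
    (σ : Fin N → Bool) (bs : Fin K → List B) :
    Measurable fun c : Clause K => Cs ξ c ch S σ bs := by
  have := (measurable_Xs ξ ch S σ bs).comp (measurable_snd : Measurable fun c : Clause K => c.2)
  unfold Cs
  exact (measurable_fst.comp measurable_fst).mul
    (measurable_const.add ((measurable_snd.comp measurable_fst).mul this))

/-! ### nested power means as functions of a parameter -/

variable {Ω : Type*} [Fintype Ω] {m : ℕ → ℝ}

lemma measurable_Z {T : Type*} [MeasurableSpace T] {w : T → List Ω → ℝ}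
    (hw : ∀ p, Measurable fun t => w t p) : ∀ k pre, Measurable fun t => Z m (w t) k pre
  | 0, pre => by simpa [Z_zero] using hw pre
  | k + 1, pre => by
    simp only [Z_succ, avg]
    exact ((Finset.measurable_sum _ fun o _ => (measurable_Z hw k _).pow_const _).div_const _).pow_const _

lemma tendsto_Z [Nonempty Ω] {T : Type*} {l : Filter T} {w : T → List Ω → ℝ} {w₀ : List Ω → ℝ}
    (hw₀ : ∀ p, 0 < w₀ p) (h : ∀ p, Tendsto (fun t => w t p) l (𝓝 (w₀ p))) :
    ∀ k pre, Tendsto (fun t => Z m (w t) k pre) l (𝓝 (Z m w₀ k pre))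
  | 0, pre => by simpa [Z_zero] using h pre
  | k + 1, pre => by
    simp only [Z_succ, avg]
    refine Tendsto.rpow_const (Tendsto.div_const (tendsto_finsetSum _ fun o _ =>
      (tendsto_Z hw₀ h k _).rpow_const (Or.inl (Z_pos hw₀ k _).ne')) _) (Or.inl ?_)
    exact (div_pos (trans_den_pos hw₀ k pre) card_pos_real).ne'

end Vale.Agent.P168.MP.Upper
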