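import Vale.Agent.P168.MP.Upper.Limit
import Vale.Agent.P168.MP.Trunc

/-! The upper bound: for every number of sites the pressure is at most every trial value. -/

namespace Vale.Agent.P168.MP.Upper

open Finset Real MeasureTheory Filter Topology

variable {K N r : ℕ} {μ : Measure (Clause K)} {β : Measure ℝ} {η : Measure (ℝ × ℝ)} {ρ : Measure ℝ}
  {lam : ℝ}

/-- exponents at all levels -/
noncomputable def expo (m : Fin r → ℝ) (l : ℕ) : ℝ :=
  if h : 1 ≤ l ∧ l ≤ r then m ⟨l - 1, by omega⟩ else 1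

lemma exps_expo {m : Fin r → ℝ} (hm : StrictMono m) (hm1 : ∀ i, m i ∈ Set.Ioo (0 : ℝ) 1) :
    Exps (r + 1) (expo m) := by
  refine ⟨fun l => ?_, fun l hl hlr => ?_, by simp [expo]⟩
  · unfold expo; split_ifs
    · exact (hm1 _).1
    · exact one_pos
  · unfold expo
    rw [dif_pos ⟨hl, by omega⟩]
    split_ifs with h
    · exact hm.monotone (Fin.mk_le_mk.2 (by omega))
    · exact (hm1 _).2.le

lemma expo_succ (m : Fin r → ℝ) (j : Fin r) : expo m (j + 1) = m j := by
  rw [expo, dif_pos ⟨by omega, j.2⟩]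
  rfl

lemma integrable_gFull {B Ω₀ : Type} [Fintype B] [Nonempty B] [Fintype Ω₀] [Nonempty Ω₀]
    [NeZero N] {m : ℕ → ℝ} {ξ : Ω₀ → List B → ℝ} (H : Hyp μ β η ρ) (E : Exps (r + 1) m)
    (hξ : ∀ o l, |ξ o l| ≤ 1) (a : ℕ) :
    Integrable (fun h : Fin N → ℝ => gFull r m ξ μ h a) (Measure.pi fun _ => ρ) := by
  have := H.pμ; have := H.pρ
  have hh : Integrable (fun y : ℝ => |y|) ρ := by simpa using H.hh.abs
  exact ((integral_sum_eval ρ hh N).1.add (integrable_const (a * ∫ c, cb c ∂μ))).mono'
    (measurable_Gh _).aestronglyMeasurable (Eventually.of_forall fun h => abs_Gh_le H E hξ h _)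

lemma integrable_uSite {B Ω₀ : Type} [Fintype B] [Nonempty B] [Fintype Ω₀] [Nonempty Ω₀]
    [NeZero K] {m : ℕ → ℝ} {ξ : Ω₀ → List B → ℝ} (H : Hyp μ β η ρ) (E : Exps (r + 1) m)
    (hξ : ∀ o l, |ξ o l| ≤ 1) (a : ℕ) :
    Integrable (fun x : ℝ => uSite r m ξ μ x a) ρ := by
  have := H.pμ; have := H.pρ
  have hh : Integrable (fun y : ℝ => |y|) ρ := by simpa using H.hh.abs
  have hme : Measurable fun q : ℝ × (Fin a → Clause K) => av fun d => site r m ξ q.1 q.2 d :=
    (Finset.measurable_sum _ fun d _ => measurable_site d).div_const _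
  refine (hh.add (integrable_const (a * ∫ c, cb c ∂μ))).mono'
    hme.stronglyMeasurable.integral_prod_right'.aestronglyMeasurable
    (Eventually.of_forall fun x => ?_)
  refine (norm_integral_le_of_norm_le ((integrable_const |x|).add (H.integral_sum_cb a).1)
    ((H.valid_pi a).mono fun w hw => abs_av_le fun d => abs_site_le E hξ x hw d)).trans (le_of_eq ?_)
  simp only [Pi.add_apply]
  rw [integral_add (integrable_const _) (H.integral_sum_cb a).1, (H.integral_sum_cb a).2]
  simp

lemma integral_bin {D : Type} [MeasurableSpace D] {P : Measure D} (p : ℝ) (n : ℕ)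
    {G : D → ℕ → ℕ → ℝ} (h : ∀ a b, Integrable (fun d => G d a b) P) :
    Integrable (fun d => bin p n (G d)) P ∧
      ∫ d, bin p n (G d) ∂P = bin p n fun a b => ∫ d, G d a b ∂P := by
  unfold bin
  refine ⟨integrable_finsetSum _ fun e _ => (h _ _).const_mul _, ?_⟩
  rw [integral_finsetSum _ fun e _ => (h _ _).const_mul _]
  simp only [integral_const_mul]

/-- the bound at a step trial function -/
theorem step_bound {α : Type} [Fintype α] [Inhabited α] [MeasurableSpace α]
    [MeasurableSingletonClass α] {q : ℝ → α} (hq : Measurable q)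
    (hint : ∀ g : α → ℝ, ∫ t, g (q t) ∂unif01 = avg g) [NeZero N] (H : Hyp μ β η ρ) (hK : Even K)
    (hK2 : 2 ≤ K) (hlam : 0 ≤ lam) {m : Fin r → ℝ} (hm : StrictMono m)
    (hm1 : ∀ i, m i ∈ Set.Ioo (0 : ℝ) 1) (g : (Fin (r + 1) → α) → ℝ) (hg : ∀ u, |g u| ≤ 1) :
    pressureM μ ρ lam N ≤ TU μ ρ lam r m (stepX q g) - TV μ lam r m (stepX q g) := by
  have := H.pμ; have := H.pρ
  have : NeZero K := ⟨by omega⟩
  have E := exps_expo hm hm1
  have hξ : ∀ (o : α) (l : List α), |msg g o l| ≤ 1 := fun _ _ => hg _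
  have hmp : ∀ l, 0 < m l := fun l => (hm1 l).1
  have hh : Integrable (fun y : ℝ => y) ρ := H.hh
  have hxm : Measurable (stepX q g) := (Measurable.of_discrete (f := g)).comp
    (measurable_pi_lambda _ fun i => hq.comp (measurable_pi_apply i))
  have hN : (0 : ℝ) < N := by exact_mod_cast NeZero.pos N
  have hK0 : (K : ℝ) ≠ 0 := by exact_mod_cast NeZero.ne K
  set v := vbar N r (expo m) (msg g) μ
  let gA : ℕ → ℝ := fun a => ∫ h : Fin N → ℝ, gFull r (expo m) (msg g) μ h a ∂Measure.pi fun _ => ρ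
  let U : ℕ → ℝ := fun a => ∫ x, uSite r (expo m) (msg g) μ x a ∂ρ
  have hkey : ∀ n : ℕ, bin (1 / (K : ℝ)) n (fun a b => gA a + b * v) ≤
      N * bin (1 / (N : ℝ)) n fun a _ => U a + 0 := by
    intro n
    have hiL : ∀ a b : ℕ, Integrable (fun h : Fin N → ℝ =>
        gFull r (expo m) (msg g) μ h a + b * v) (Measure.pi fun _ => ρ) := fun a b =>
      (integrable_gFull H E hξ a).add (integrable_const _)
    have hiR : ∀ (s : Fin N) (a : ℕ), Integrable (fun h : Fin N → ℝ =>
        uSite r (expo m) (msg g) μ (h s) a) (Measure.pi fun _ => ρ) := fun s a =>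
      integrable_comp_eval (μ := fun _ : Fin N => ρ) (i := s) (integrable_uSite H E hξ a)
    have iR := fun s : Fin N => integral_bin (1 / (N : ℝ)) n fun a (_ : ℕ) => hiR s a
    have iL := integral_bin (1 / (K : ℝ)) n hiL
    have hpt : ∀ h : Fin N → ℝ, bin (1 / (K : ℝ)) n (fun a b => gFull r (expo m) (msg g) μ h a + b * v) ≤
        ∑ s, bin (1 / (N : ℝ)) n fun a _ => uSite r (expo m) (msg g) μ (h s) a := fun h => by
      have h0 := hybrid H hK hK2 E hξ h n
      rw [sum_single H E hξ h n] at h0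
      refine le_of_eq_of_le ?_ h0
      unfold bin
      simp only [Gh_fullNone H E hξ h, pFull]
      rfl
    have h1 := integral_mono iL.1 (integrable_finsetSum univ fun s _ => (iR s).1) hpt
    rw [iL.2, integral_finsetSum _ fun s _ => (iR s).1] at h1
    simp only [(iR _).2] at h1
    have e1 : ∀ a b : ℕ, ∫ h : Fin N → ℝ, gFull r (expo m) (msg g) μ h a + b * v
        ∂Measure.pi (fun _ => ρ) = gA a + b * v := fun a b => by
      rw [integral_add (integrable_gFull H E hξ a) (integrable_const _)]; simp [gA]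
    have e2 : ∀ (s : Fin N) (a : ℕ), ∫ h : Fin N → ℝ, uSite r (expo m) (msg g) μ (h s) a
        ∂Measure.pi (fun _ => ρ) = U a := fun s a =>
      integral_comp_eval (μ := fun _ : Fin N => ρ) (i := s) (integrable_uSite H E hξ a).1
    simp only [e1, e2, sum_const, card_univ, Fintype.card_fin, nsmul_eq_mul] at h1
    simpa using h1
  have hA : HasSum (fun a => pois (lam * N) a * gA a)
      (N * pressureM μ ρ lam N - N * log 2) := by
    have hP := (summable_pressureM (N := N) H.hθ hh hlam).hasSum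
    have h2 := hP.sub ((hasSum_pois (lam * N)).mul_right ((N : ℝ) * log 2))
    rw [one_mul] at h2
    have e : N * pressureM μ ρ lam N = ∑' M : ℕ, pois (lam * N) M *
        ∫ h : Fin N → ℝ, ∫ w : Fin M → Clause K, av (fun i => logZ h w i)
          ∂Measure.pi (fun _ => μ) ∂Measure.pi (fun _ => ρ) := by
      unfold pressureM; field_simp
    rw [← e] at h2
    refine h2.congr_fun fun a => ?_
    simp only [gA, gFull_eq H E hξ]
    rw [integral_sub (integrable_av_logZM H.hθ hh a).integral_prod_left (integrable_const _)]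
    simp; ring
  have hV : HasSum (fun b : ℕ => pois (((K : ℝ) - 1) * lam * N) b * (b * v))
      (((K : ℝ) - 1) * lam * N * v) :=
    ((hasSum_pois_id _).mul_right v).congr_fun fun b => by ring
  have hTV : TV μ lam r m (stepX q g) = ((K : ℝ) - 1) * lam * v :=
    HasSum.tsum_eq (((hasSum_pois_id _).mul_right v).congr_fun fun b => by
      rw [vbar_eq (N := N) H E hq hint m (expo_succ m) g hg b]; ring)
  have hTU : HasSum (fun a => pois (K * lam) a * U a) (TU μ ρ lam r m (stepX q g) - log 2) := by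
    have h2 := (TU_bound H.hθ hh hlam hmp hxm fun _ => hg _).1.hasSum.sub
      ((hasSum_pois (K * lam)).mul_right (log 2))
    rw [one_mul] at h2
    refine h2.congr_fun fun a => ?_
    simp only [← uSite_eq H E hq hint m (expo_succ m) g hg _ a, U]
    rw [integral_add (integrable_uSite H E hξ a) (integrable_const _)]
    simp; ring
  have hL := hasSum_thin (R := K * lam * N) (p := 1 / K) (G := fun a b => gA a + b * v)
    (by
      rw [show (K : ℝ) * lam * N * (1 / K) = lam * N by field_simp,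
        show (K : ℝ) * lam * N * (1 - 1 / K) = ((K : ℝ) - 1) * lam * N by field_simp]
      exact hasSum_pair (f := gA) (g := fun b : ℕ => (b : ℝ) * v) hA hV)
  have hR := (hasSum_thin (R := K * lam * N) (p := 1 / N) (G := fun a _ => U a + 0)
    (by
      rw [show (K : ℝ) * lam * N * (1 / N) = K * lam by field_simp]
      exact hasSum_pair (f := U) hTU (g := fun _ => 0) (F₂ := 0) (by simp [hasSum_zero]))).mul_left (N : ℝ)
  have hle := hasSum_le (fun n => ?_) hL hR
  · rw [add_zero] at hle
    rw [hTV]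
    refine le_of_mul_le_mul_left (a := (N : ℝ)) ?_ hN
    linarith
  · rw [mul_left_comm]
    exact mul_le_mul_of_nonneg_left (hkey n) (pois_nonneg (by positivity) n)

/-- **Upper bound.** The pressure of every system is at most every trial value. -/
theorem pressureM_le (H : Hyp μ β η ρ) (hK : Even K) (hK2 : 2 ≤ K) (hlam : 0 ≤ lam)
    {m : Fin r → ℝ} {x : (Fin (r + 1) → ℝ) → ℝ} (hm : StrictMono m)
    (hm1 : ∀ i, m i ∈ Set.Ioo (0 : ℝ) 1) (hx : Measurable x) (hx1 : ∀ ω, |x ω| ≤ 1) (N : ℕ)
    [NeZero N] : pressureM μ ρ lam N ≤ TU μ ρ lam r m x - TV μ lam r m x := by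
  have := H.pμ; have := H.pρ
  have : NeZero K := ⟨by omega⟩
  obtain ⟨M, g, hg, hconv⟩ := exists_steps hx hx1
  have hxn : ∀ k, Measurable (stepX (dig (M k)) (g k)) := fun k =>
    (Measurable.of_discrete (f := g k)).comp
      (measurable_pi_lambda _ fun i => (measurable_dig _).comp (measurable_pi_apply i))
  have hmp : ∀ l, 0 < m l := fun l => (hm1 l).1
  refine ge_of_tendsto' ((TU_tendsto H.hθ H.hh hlam hmp hxn hx (fun k v => hg k _) hx1 hconv).sub
    (TV_tendsto H.hθ hlam hmp hxn hx (fun k v => hg k _) hx1 hconv)) fun k => ?_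
  exact step_bound (measurable_dig _) (integral_dig _) H hK hK2 hlam hm hm1 (g k) (hg k)

end Vale.Agent.P168.MP.Upper
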