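import Vale.Agent.P168.MP.Upper.Tree

/-! Replica functionals of product structures. -/

namespace Vale.Agent.P168.MP.Upper

open Finset Real

variable {Ω A B : Type} [Fintype Ω] [Fintype A] [Fintype B] {m : ℕ → ℝ}

omit [Fintype Ω] [Fintype A] [Fintype B] in
lemma fo_prod {T : Type} {gΩ : T → (List (List Ω) → ℝ) → ℝ} {gA : T → (List (List A) → ℝ) → ℝ}
    {gB : T → (List (List B) → ℝ) → ℝ} {f1 : List Ω → List A} {f2 : List Ω → List B}
    (hg : ∀ t F G, gΩ t (fun ps => F (ps.map f1) * G (ps.map f2)) = gA t F * gB t G) :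
    ∀ (L : List T) (F : List (List A) → ℝ) (G : List (List B) → ℝ),
      fo gΩ L (fun ps => F (ps.map f1) * G (ps.map f2)) = fo gA L F * fo gB L G
  | [], F, G => by simp [fo]
  | t :: L, F, G => by
    simp only [fo, List.map_append]
    simp only [fun a : List (List Ω) => fo_prod hg L (fun b => F (a.map f1 ++ b))
      (fun b => G (a.map f2 ++ b))]
    exact hg t (fun a => fo gA L fun b => F (a ++ b)) fun a => fo gB L fun b => G (a ++ b)

lemma trans_prod (e : Ω ≃ A × B) {WA : List A → ℝ} {WB : List B → ℝ} (hA : ∀ p, 0 ≤ WA p)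
    (hB : ∀ p, 0 ≤ WB p) (k : ℕ) (pre : List Ω) (o : Ω) :
    trans m (fun p => WA (p.map fun o => (e o).1) * WB (p.map fun o => (e o).2)) k pre o =
      trans m WA k (pre.map fun o => (e o).1) (e o).1 *
        trans m WB k (pre.map fun o => (e o).2) (e o).2 := by
  simp only [trans, Z_prod e hA hB, List.map_append, List.map_cons, List.map_nil, List.length_map,
    fun a b => mul_rpow (Z_nonneg (m := m) hA k a) (Z_nonneg (m := m) hB k b)
      (z := m (pre.length + 1))]
  rw [e.sum_comp fun o => Z m WA k ((pre.map fun o => (e o).1) ++ [o.1]) ^ m (pre.length + 1) *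
      Z m WB k ((pre.map fun o => (e o).2) ++ [o.2]) ^ m (pre.length + 1),
    Fintype.sum_prod_type, div_mul_div_comm, Fintype.sum_mul_sum]

lemma J_prod (e : Ω ≃ A × B) {WA : List A → ℝ} {WB : List B → ℝ} (hA : ∀ p, 0 ≤ WA p)
    (hB : ∀ p, 0 ≤ WB p) :
    ∀ (k : ℕ) (t : Tree k) (pre : List Ω) (F : List (List A) → ℝ) (G : List (List B) → ℝ),
      J m (fun p => WA (p.map fun o => (e o).1) * WB (p.map fun o => (e o).2)) k t pre
          (fun ps => F (ps.map fun p => p.map fun o => (e o).1) *
            G (ps.map fun p => p.map fun o => (e o).2)) =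
        J m WA k t (pre.map fun o => (e o).1) F * J m WB k t (pre.map fun o => (e o).2) G
  | 0, t, pre, F, G => by simp [J_zero]
  | k + 1, L, pre, F, G => by
    refine fo_prod (fun t F G => ?_) L F G
    simp only [J_prod e hA hB k t, trans_prod e hA hB, List.map_append, List.map_cons,
      List.map_nil]
    rw [e.sum_comp fun o => trans m WA k (pre.map fun o => (e o).1) o.1 *
        trans m WB k (pre.map fun o => (e o).2) o.2 *
        (J m WA k t ((pre.map fun o => (e o).1) ++ [o.1]) F *
          J m WB k t ((pre.map fun o => (e o).2) ++ [o.2]) G),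
      Fintype.sum_prod_type, Fintype.sum_mul_sum]
    exact sum_congr rfl fun a _ => sum_congr rfl fun b _ => by ring

variable {ι : Type} [Fintype ι] [DecidableEq ι] {β : ι → Type} [∀ i, Fintype (β i)]

omit [Fintype Ω] [DecidableEq ι] [∀ i, Fintype (β i)] in
lemma fo_pi {T : Type} {gΩ : T → (List (List Ω) → ℝ) → ℝ}
    {gi : ∀ i, T → (List (List (β i)) → ℝ) → ℝ} {f : ∀ i, List Ω → List (β i)}
    (hg : ∀ t (G : ∀ i, List (List (β i)) → ℝ),
      gΩ t (fun ps => ∏ i, G i (ps.map (f i))) = ∏ i, gi i t (G i)) :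
    ∀ (L : List T) (G : ∀ i, List (List (β i)) → ℝ),
      fo gΩ L (fun ps => ∏ i, G i (ps.map (f i))) = ∏ i, fo (gi i) L (G i)
  | [], G => by simp [fo]
  | t :: L, G => by
    simp only [fo, List.map_append]
    simp only [fun a : List (List Ω) => fo_pi hg L fun i b => G i (a.map (f i) ++ b)]
    exact hg t fun i a => fo (gi i) L fun b => G i (a ++ b)

lemma trans_pi (e : Ω ≃ ∀ i, β i) {W : ∀ i, List (β i) → ℝ} (hW : ∀ i p, 0 ≤ W i p) (k : ℕ)
    (pre : List Ω) (o : Ω) :
    trans m (fun p => ∏ i, W i (p.map fun o => e o i)) k pre o =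
      ∏ i, trans m (W i) k (pre.map fun o => e o i) (e o i) := by
  simp only [trans, Z_pi e hW, List.map_append, List.map_cons, List.map_nil, List.length_map,
    fun o : Ω => (finsetProd_rpow univ
      (fun i => Z m (W i) k ((pre.map fun o => e o i) ++ [e o i]))
      (fun i _ => Z_nonneg (m := m) (hW i) k _) (m (pre.length + 1))).symm]
  rw [e.sum_comp fun o => ∏ i,
      Z m (W i) k ((pre.map fun o => e o i) ++ [o i]) ^ m (pre.length + 1),
    ← Fintype.prod_sum fun i a =>
      Z m (W i) k ((pre.map fun o => e o i) ++ [a]) ^ m (pre.length + 1),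
    Finset.prod_div_distrib]

lemma J_pi (e : Ω ≃ ∀ i, β i) {W : ∀ i, List (β i) → ℝ} (hW : ∀ i p, 0 ≤ W i p) :
    ∀ (k : ℕ) (t : Tree k) (pre : List Ω) (G : ∀ i, List (List (β i)) → ℝ),
      J m (fun p => ∏ i, W i (p.map fun o => e o i)) k t pre
          (fun ps => ∏ i, G i (ps.map fun p => p.map fun o => e o i)) =
        ∏ i, J m (W i) k t (pre.map fun o => e o i) (G i)
  | 0, t, pre, G => by simp [J_zero]
  | k + 1, L, pre, G => by
    refine fo_pi (fun t G => ?_) L G
    simp only [J_pi e hW k t, trans_pi e hW, List.map_append, List.map_cons, List.map_nil,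
      ← prod_mul_distrib]
    rw [e.sum_comp fun o => ∏ i, trans m (W i) k (pre.map fun o => e o i) (o i) *
        J m (W i) k t ((pre.map fun o => e o i) ++ [o i]) (G i), ← Fintype.prod_sum fun i a =>
        trans m (W i) k (pre.map fun o => e o i) a *
          J m (W i) k t ((pre.map fun o => e o i) ++ [a]) (G i)]

end Vale.Agent.P168.MP.Upper
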