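import Vale.Agent.P168.MP.Upper.Setup
import Vale.Agent.P168.MP.Upper.Split

/-! The one-clause inequality: replacing a clause with one configuration slot by the mixture of a
full clause and a message-only clause does not increase the nested log functional. -/

namespace Vale.Agent.P168.MP.Upper

open Finset Real MeasureTheory Filter Topology

instance countable_tree : ∀ k, Countable (Tree k)
  | 0 => inferInstanceAs (Countable Unit)
  | k + 1 => by have := countable_tree k; exact inferInstanceAs (Countable (List (Tree k)))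

/-- full minus mixed, over slot sets -/
noncomputable def comb {K : ℕ} (F : (Fin K → Bool) → ℝ) : ℝ :=
  1 / K * F (fun _ => true) + (1 - 1 / K) * F (fun _ => false) -
    1 / K * ∑ ℓ, F fun j => decide (j = ℓ)

variable {K : ℕ}

lemma comb_mul (c : ℝ) (F : (Fin K → Bool) → ℝ) : comb (fun s => c * F s) = c * comb F := by
  simp only [comb, ← mul_sum]; ring

lemma comb_sub (F G : (Fin K → Bool) → ℝ) : comb (fun s => F s - G s) = comb F - comb G := by
  simp only [comb, sum_sub_distrib]; ring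

lemma comb_const [NeZero K] (c : ℝ) : comb (fun _ : Fin K → Bool => c) = 0 := by
  have : (K : ℝ) ≠ 0 := by exact_mod_cast NeZero.ne K
  simp [comb]; field_simp; ring

lemma abs_comb_le [NeZero K] {F : (Fin K → Bool) → ℝ} {C : ℝ} (h : ∀ s, |F s| ≤ C) :
    |comb F| ≤ 2 * C := by
  have hK : (0 : ℝ) < K := by exact_mod_cast NeZero.pos K
  have h1 : 1 / (K : ℝ) ≤ 1 := by rw [div_le_one hK]; exact_mod_cast NeZero.pos K
  have hs := (abs_sum_le_sum_abs (fun ℓ => F fun j => decide (j = ℓ)) univ).trans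
    (sum_le_sum fun ℓ _ => h _)
  simp only [sum_const, card_univ, Fintype.card_fin, nsmul_eq_mul] at hs
  have hk : 0 ≤ 1 / (K : ℝ) := by positivity
  unfold comb
  refine (abs_sub _ _).trans ((add_le_add (abs_add_le _ _) le_rfl).trans ?_)
  rw [abs_mul, abs_mul, abs_mul, abs_of_nonneg hk, abs_of_nonneg (sub_nonneg.2 h1)]
  have a1 := mul_le_mul_of_nonneg_left (h fun _ => true) hk
  have a2 := mul_le_mul_of_nonneg_left (h fun _ => false) (sub_nonneg.2 h1)
  have a3 := mul_le_mul_of_nonneg_left hs hk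
  have a4 : 1 / (K : ℝ) * ((K : ℝ) * C) = C := by field_simp
  linarith

/-- the three-term inequality -/
lemma three_term (hK : Even K) (hK2 : 2 ≤ K) (x y : ℝ) :
    (K : ℝ) * x * y ^ (K - 1) ≤ x ^ K + ((K : ℝ) - 1) * y ^ K := by
  rw [← hK.pow_abs x, ← hK.pow_abs y]
  have h0 : x * y ^ (K - 1) ≤ |x| * |y| ^ (K - 1) :=
    (le_abs_self _).trans (by rw [abs_mul, abs_pow])
  refine le_trans (show (K : ℝ) * x * y ^ (K - 1) ≤ K * (|x| * |y| ^ (K - 1)) by
    rw [mul_assoc]; exact mul_le_mul_of_nonneg_left h0 (Nat.cast_nonneg _)) ?_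
  rcases (abs_nonneg y).eq_or_lt with h | h
  · rw [← h, zero_pow (by omega), zero_pow (by omega)]
    simp only [mul_zero, add_zero]
    positivity
  have hb := one_add_mul_le_pow (a := |x| / |y| - 1) (by linarith [div_nonneg (abs_nonneg x) h.le]) K
  rw [add_sub_cancel, div_pow, le_div_iff₀ (pow_pos h K)] at hb
  have e : |y| ^ K = |y| ^ (K - 1) * |y| := by rw [← pow_succ]; congr 1; omega
  have e2 : (1 + (K : ℝ) * (|x| / |y| - 1)) * |y| ^ K =
      |y| ^ K + K * |x| * |y| ^ (K - 1) - K * |y| ^ K := by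
    rw [e]; field_simp; ring
  linarith

variable {N r : ℕ} {A B Ω₀ : Type} [Fintype A] [Fintype B] [Fintype Ω₀] {m : ℕ → ℝ}

/-- paths of a base structure and of the messages of one clause -/
abbrev Ext (A B : Type) (K : ℕ) : Type := A × (Fin K → B)

/-- the weight without the clause -/
def baseW (W : List A → ℝ) (p : List (Ext A B K)) : ℝ := W (p.map Prod.fst)

/-- the product of the factors of the clause along a path -/
noncomputable def Xp (ξ : Ω₀ → List B → ℝ) (sA : List A → Fin N → Bool) (f : Fin K → ℝ × ℝ)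
    (ch : Fin K → Fin N × Ω₀) (S : Fin K → Bool) (p : List (Ext A B K)) : ℝ :=
  Xs ξ f ch S (sA (p.map Prod.fst)) fun j => p.map fun o => o.2 j

/-- the nested log functional with the clause -/
noncomputable def withClause (r : ℕ) (m : ℕ → ℝ) (ξ : Ω₀ → List B → ℝ) (W : List A → ℝ)
    (sA : List A → Fin N → Bool) (c : Clause K) (ch : Fin K → Fin N × Ω₀) (S : Fin K → Bool) : ℝ :=
  log (Z m (fun p : List (Ext A B K) => baseW W p *
    Cs ξ c ch S (sA (p.map Prod.fst)) fun j => p.map fun o => o.2 j) (r + 1) [])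

/-- the same with the clause `1 + t b X`, relative to the base -/
noncomputable def relT (r : ℕ) (m : ℕ → ℝ) (ξ : Ω₀ → List B → ℝ) (W : List A → ℝ)
    (sA : List A → Fin N → Bool) (t : ℝ) (c : Clause K) (ch : Fin K → Fin N × Ω₀)
    (S : Fin K → Bool) : ℝ :=
  log (Z m (fun p : List (Ext A B K) => baseW W p * (1 + t * c.1.2 * Xp ξ sA c.2 ch S p)) (r + 1) [])
    - log (Z m (baseW (B := B) (K := K) W) (r + 1) [])

variable {ξ : Ω₀ → List B → ℝ} {W : List A → ℝ} {sA : List A → Fin N → Bool}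

lemma Pr_prod {α : Type} (X : Fin K → α → ℝ) :
    ∀ l : List α, Pr (fun a => ∏ j, X j a) l = ∏ j, Pr (X j) l
  | [] => by simp [Pr]
  | a :: l => by
    have := Pr_prod X l
    simp only [Pr, List.map_cons, List.prod_cons] at this ⊢
    rw [this, ← prod_mul_distrib]

lemma abs_Pr_le {α : Type} {X : α → ℝ} (h : ∀ a, |X a| ≤ 1) : ∀ l : List α, |Pr X l| ≤ 1
  | [] => by simp [Pr]
  | a :: l => by
    have := abs_Pr_le h l
    simp only [Pr, List.map_cons, List.prod_cons] at this ⊢
    rw [abs_mul]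
    exact mul_le_one₀ (h a) (abs_nonneg _) this

lemma measurable_Pr {α T : Type} [MeasurableSpace T] {X : T → α → ℝ}
    (h : ∀ a, Measurable fun t => X t a) : ∀ l : List α, Measurable fun t => Pr (X t) l
  | [] => by simp [Pr]
  | a :: l => by
    simp only [Pr, List.map_cons, List.prod_cons]
    exact (h a).mul (measurable_Pr h l)

section
variable [Nonempty A] [Nonempty B]

omit [Nonempty A] [Nonempty B] in
/-- factorisation of a functional over the base and the messages of the slots -/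
lemma J_slots (hW : ∀ p, 0 < W p) (k : ℕ) (L : Tree k) (F : List (List A) → ℝ)
    (G : Fin K → List (List B) → ℝ) :
    J m (baseW (B := B) (K := K) W) k L [] (fun ps => F (ps.map fun p => p.map Prod.fst) *
        ∏ j, G j (ps.map fun p => p.map fun o => o.2 j)) =
      J m W k L [] F * ∏ j, J m (fun _ => 1) k L [] (G j) := by
  have h1 := J_prod (m := m) (Equiv.refl (Ext A B K)) (fun p => (hW p).le)
    (WB := fun _ : List (Fin K → B) => (1 : ℝ)) (fun _ => zero_le_one) k L [] F
    (fun qs => ∏ j, G j (qs.map fun q => q.map fun o => o j))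
  have h2 := J_pi (m := m) (Equiv.refl (Fin K → B)) (W := fun _ _ => (1 : ℝ))
    (fun _ _ => zero_le_one) k L [] G
  simp only [Equiv.refl_apply, List.map_nil, prod_const_one, mul_one] at h1 h2
  rw [h2] at h1
  rw [← h1]
  simp only [List.map_map, Function.comp_def]
  rfl

end

variable [NeZero N] [NeZero K] [Nonempty A] [Nonempty B] [Nonempty Ω₀]

omit [NeZero N] [NeZero K] [Nonempty Ω₀] [Fintype Ω₀] in
lemma withClause_eq (E : Exps (r + 1) m) (hξ : ∀ o l, |ξ o l| ≤ 1) (hW : ∀ p, 0 < W p)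
    {c : Clause K} (hc : P168.Valid c) (ch : Fin K → Fin N × Ω₀) (S : Fin K → Bool) :
    withClause r m ξ W sA c ch S =
      relT r m ξ W sA 1 c ch S + (log c.1.1 + log (Z m (baseW (B := B) (K := K) W) (r + 1) [])) := by
  have hp : ∀ p : List (Ext A B K), 0 < baseW W p * (1 + 1 * c.1.2 * Xp ξ sA c.2 ch S p) := fun p => by
    refine mul_pos (hW _) ?_
    unfold Xp
    linarith [(abs_lt.1 (abs_tbX_lt hξ hc (t := 1) (by simp) ch S (sA (p.map Prod.fst))
      fun j => p.map fun o => o.2 j)).1]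
  have e : (fun p : List (Ext A B K) => baseW W p *
      Cs ξ c ch S (sA (p.map Prod.fst)) fun j => p.map fun o => o.2 j) =
      fun p => c.1.1 * (baseW W p * (1 + 1 * c.1.2 * Xp ξ sA c.2 ch S p)) := by
    funext p; unfold Cs Xp; ring
  rw [withClause, e, Z_const_mul E.pos (fun p => (hp p).le) hc.1.le,
    log_mul hc.1.ne' (Z_pos hp _ _).ne', relT]
  ring

omit [NeZero N] [NeZero K] [Nonempty Ω₀] [Fintype Ω₀] in
lemma relT_diff_le (E : Exps (r + 1) m) (hξ : ∀ o l, |ξ o l| ≤ 1) (hW : ∀ p, 0 < W p)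
    {c : Clause K} (hc : P168.Valid c) {t : ℝ} (ht0 : 0 ≤ t) (ht1 : t ≤ 1)
    (ch ch' : Fin K → Fin N × Ω₀) (S S' : Fin K → Bool) :
    relT r m ξ W sA t c ch S - relT r m ξ W sA t c ch' S' ≤ 2 * cb c := by
  have hpos : ∀ ch S (p : List (Ext A B K)), 0 < 1 + t * c.1.2 * Xp ξ sA c.2 ch S p := fun ch S p => by
    unfold Xp
    linarith [(abs_lt.1 (abs_tbX_lt hξ hc (by rwa [abs_of_nonneg ht0]) ch S (sA (p.map Prod.fst))
      fun j => p.map fun o => o.2 j)).1]
  have hw : ∀ ch S (p : List (Ext A B K)), 0 < baseW W p * (1 + t * c.1.2 * Xp ξ sA c.2 ch S p) :=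
    fun ch S p => mul_pos (hW _) (hpos ch S p)
  have := log_Z_sub_le E.pos (hw ch S) (hw ch' S') (C := 2 * cb c) (fun p => by
    rw [log_mul (x := baseW W p) (hW _).ne' (hpos ch S p).ne',
      log_mul (x := baseW W p) (hW _).ne' (hpos ch' S' p).ne']
    have := log_diff_le hξ hc ht0 ht1 ch ch' S S' (sA (p.map Prod.fst)) (sA (p.map Prod.fst))
      (fun j => p.map fun o => o.2 j) (fun j => p.map fun o => o.2 j)
    unfold Xp
    linarith) (r + 1) []
  unfold relT
  linarith

omit [NeZero N] [Nonempty Ω₀] [Fintype Ω₀] in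
lemma abs_comb_relT_le (E : Exps (r + 1) m) (hξ : ∀ o l, |ξ o l| ≤ 1) (hW : ∀ p, 0 < W p)
    {c : Clause K} (hc : P168.Valid c) {t : ℝ} (ht0 : 0 ≤ t) (ht1 : t ≤ 1)
    (ch : Fin K → Fin N × Ω₀) : |comb (relT r m ξ W sA t c ch)| ≤ 4 * cb c := by
  have h : comb (relT r m ξ W sA t c ch) =
      comb fun s => relT r m ξ W sA t c ch s - relT r m ξ W sA t c ch fun _ => false := by
    rw [comb_sub, comb_const, sub_zero]
  rw [h]
  refine (abs_comb_le (C := 2 * cb c) fun s => abs_le.2 ⟨?_, ?_⟩).trans (le_of_eq (by ring))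
  · linarith [relT_diff_le (sA := sA) E hξ hW hc ht0 ht1 ch ch (fun _ => false) s]
  · exact relT_diff_le E hξ hW hc ht0 ht1 ch ch s _

omit [NeZero N] [NeZero K] [Nonempty A] [Nonempty B] [Nonempty Ω₀] [Fintype Ω₀] in
lemma measurable_relT (t : ℝ) (ch : Fin K → Fin N × Ω₀) (S : Fin K → Bool) :
    Measurable fun c : Clause K => relT r m ξ W sA t c ch S := by
  refine (Real.measurable_log.comp (measurable_Z (fun p => ?_) _ _)).sub measurable_const
  have := (measurable_Xs ξ ch S (sA (p.map Prod.fst)) fun j => p.map fun o => o.2 j).comp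
    (measurable_snd : Measurable fun c : Clause K => c.2)
  exact measurable_const.mul
    (measurable_const.add ((measurable_const.mul (measurable_snd.comp measurable_fst)).mul this))

omit [NeZero N] [NeZero K] [Nonempty A] [Nonempty B] [Nonempty Ω₀] in
lemma measurable_av_comb (t : ℝ) :
    Measurable fun c : Clause K => av fun ch => comb (relT r m ξ W sA t c ch) := by
  unfold av comb
  refine (Finset.measurable_sum _ fun ch _ => ?_).div_const _
  exact (((measurable_relT t ch _).const_mul _).add ((measurable_relT t ch _).const_mul _)).sub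
    ((Finset.measurable_sum _ fun ℓ _ => measurable_relT t ch _).const_mul _)

/-! ### the series of a clause -/

/-- the averaged functional of a forest -/
noncomputable def HL (r : ℕ) (m : ℕ → ℝ) (ξ : Ω₀ → List B → ℝ) (W : List A → ℝ)
    (sA : List A → Fin N → Bool) (L : List (Tree r)) (f : Fin K → ℝ × ℝ) : ℝ :=
  av fun ch : Fin K → Fin N × Ω₀ => comb fun S =>
    J m (baseW (B := B) (K := K) W) (r + 1) L [] (Pr (Xp ξ sA f ch S))

omit [NeZero N] [NeZero K] [Nonempty Ω₀] in
lemma hasSum_av_comb (E : Exps (r + 1) m) (hξ : ∀ o l, |ξ o l| ≤ 1) (hW : ∀ p, 0 < W p)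
    {c : Clause K} (hc : P168.Valid c) {t : ℝ} (ht0 : 0 ≤ t) (ht1 : t ≤ 1) :
    HasSum (fun L : List (Tree r) =>
        coefTop r m L * (-(t * c.1.2)) ^ leaves (r + 1) L * HL r m ξ W sA L c.2)
      (-av fun ch => comb (relT r m ξ W sA t c ch)) := by
  have h : ∀ (ch : Fin K → Fin N × Ω₀) S, HasSum (fun L : List (Tree r) =>
      coefTop r m L * (-(t * c.1.2)) ^ leaves (r + 1) L *
        J m (baseW (B := B) (K := K) W) (r + 1) L [] (Pr (Xp ξ sA c.2 ch S)))
      (-relT r m ξ W sA t c ch S) := fun ch S => by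
    have hX : ∀ p, |-(t * c.1.2) * Xp ξ sA c.2 ch S p| < 1 := fun p => by
      rw [neg_mul, abs_neg]
      exact abs_tbX_lt hξ hc (by rwa [abs_of_nonneg ht0]) ch S _ _
    have := hasSum_log E (w := baseW (B := B) (K := K) W) (fun p => hW _) hX
    rw [relT, neg_sub]
    have e : (fun p : List (Ext A B K) => baseW W p * (1 - -(t * c.1.2) * Xp ξ sA c.2 ch S p)) =
        fun p => baseW W p * (1 + t * c.1.2 * Xp ξ sA c.2 ch S p) := funext fun p => by ring
    rw [e] at this
    exact this
  have hc' : ∀ ch : Fin K → Fin N × Ω₀, HasSum (fun L : List (Tree r) =>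
      coefTop r m L * (-(t * c.1.2)) ^ leaves (r + 1) L *
        comb (fun S => J m (baseW (B := B) (K := K) W) (r + 1) L [] (Pr (Xp ξ sA c.2 ch S))))
      (-comb (relT r m ξ W sA t c ch)) := fun ch => by
    have e : -comb (relT r m ξ W sA t c ch) = comb fun S => -relT r m ξ W sA t c ch S := by
      simpa using (comb_mul (-1) (relT r m ξ W sA t c ch)).symm
    rw [e]
    refine ((((h ch _).mul_left (1 / (K : ℝ))).add ((h ch _).mul_left (1 - 1 / (K : ℝ)))).sub
      ((hasSum_sum fun ℓ _ => h ch fun j => decide (j = ℓ)).mul_left (1 / (K : ℝ)))).congr_fun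
      fun L => ?_
    simp only [comb, ← mul_sum]; ring
  have := (hasSum_sum fun ch (_ : ch ∈ univ) => hc' ch).div_const
    ((Fintype.card (Fin K → Fin N × Ω₀)) : ℝ)
  rw [sum_neg_distrib, neg_div] at this
  refine this.congr_fun fun L => ?_
  simp only [HL, av, ← mul_sum, mul_div_assoc]

omit [Nonempty A] [Nonempty B] [Fintype A] [Fintype B] [NeZero K] [NeZero N] [Nonempty Ω₀] [Fintype Ω₀] in
lemma measurable_integrand (S : Fin K → Bool) (ch : Fin K → Fin N × Ω₀)
    (ps : List (List (Ext A B K))) :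
    Measurable fun f : Fin K → ℝ × ℝ => Pr (Xp ξ sA f ch S) ps :=
  measurable_Pr (fun _p => measurable_Xs ξ ch S _ _) ps

variable {η : Measure (ℝ × ℝ)} [IsProbabilityMeasure η]

omit [Nonempty A] [Nonempty B] [Fintype A] [Fintype B] [NeZero K] in
lemma integrable_integrand (hf : ∀ᵐ p ∂η, |p.1| ≤ 1 ∧ |p.2| ≤ 1) (hξ : ∀ o l, |ξ o l| ≤ 1)
    (S : Fin K → Bool) (ps : List (List (Ext A B K))) :
    Integrable (fun f : Fin K → ℝ × ℝ => av fun ch => Pr (Xp ξ sA f ch S) ps)
      (Measure.pi fun _ => η) := by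
  refine Integrable.of_bound (C := 1)
    ((Finset.measurable_sum _ fun ch _ => measurable_integrand S ch ps).div_const _).aestronglyMeasurable ?_
  have : ∀ᵐ f ∂Measure.pi (fun _ : Fin K => η), ∀ j, |(f j).1| ≤ 1 ∧ |(f j).2| ≤ 1 :=
    ae_all_iff.2 fun j => (Measure.tendsto_eval_ae_ae (μ := fun _ : Fin K => η) (i := j)).eventually hf
  filter_upwards [this] with f hf
  exact abs_av_le fun ch => abs_Pr_le (fun p => abs_Xs_le hξ hf _ _ _ _) ps

omit [Nonempty A] [Nonempty B] [Fintype A] [Fintype B] [NeZero K] [IsProbabilityMeasure η] [NeZero N] [Nonempty Ω₀] in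
lemma integral_integrand [SigmaFinite η] (S : Fin K → Bool) (ps : List (List (Ext A B K))) :
    ∫ f : Fin K → ℝ × ℝ, (av fun ch => Pr (Xp ξ sA f ch S) ps) ∂Measure.pi (fun _ => η) =
      ∏ j, if S j then
          ∫ f, (av fun x : Fin N × Ω₀ => Pr (fun p => fval f (sA p x.1))
            (ps.map fun p => p.map Prod.fst)) ∂η
        else ∫ f, (av fun x : Fin N × Ω₀ => Pr (fun p => fmean f (ξ x.2 p))
            (ps.map fun p => p.map fun o => o.2 j)) ∂η := by
  let g : Fin K → ℝ × ℝ → ℝ := fun j f => if S j then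
      av fun x : Fin N × Ω₀ => Pr (fun p => fval f (sA p x.1)) (ps.map fun p => p.map Prod.fst)
    else av fun x : Fin N × Ω₀ => Pr (fun p => fmean f (ξ x.2 p))
      (ps.map fun p => p.map fun o => o.2 j)
  have e : ∀ f : Fin K → ℝ × ℝ, (av fun ch => Pr (Xp ξ sA f ch S) ps) = ∏ j, g j (f j) := fun f => by
    unfold Xp Xs
    simp only [Pr_prod]
    rw [av_pi fun j (x : Fin N × Ω₀) => Pr (fun p : List (Ext A B K) => if S j = true then
      fval (f j) (sA (p.map Prod.fst) x.1) else fmean (f j) (ξ x.2 (p.map fun o => o.2 j))) ps]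
    refine prod_congr rfl fun j _ => ?_
    simp only [g]
    split_ifs <;> simp only [Pr, List.map_map, Function.comp_def]
  simp only [e]
  rw [integral_fintype_prod_eq_prod]
  refine prod_congr rfl fun j _ => ?_
  simp only [g]
  split_ifs <;> rfl

/-- positivity of every term of the series -/
lemma integral_HL_nonneg (hK : Even K) (hK2 : 2 ≤ K) (hf : ∀ᵐ p ∂η, |p.1| ≤ 1 ∧ |p.2| ≤ 1)
    (hξ : ∀ o l, |ξ o l| ≤ 1) (hW : ∀ p, 0 < W p) (L : List (Tree r)) :
    Integrable (fun f : Fin K → ℝ × ℝ => HL r m ξ W sA L f) (Measure.pi fun _ => η) ∧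
      0 ≤ ∫ f : Fin K → ℝ × ℝ, HL r m ξ W sA L f ∂Measure.pi (fun _ => η) := by
  have hJ := isExp_J (m := m) (w := baseW (B := B) (K := K) W) (fun p => hW _) (r + 1) L []
  let I : (Fin K → Bool) → (Fin K → ℝ × ℝ) → ℝ := fun S f =>
    J m (baseW (B := B) (K := K) W) (r + 1) L []
      fun ps => av fun ch => Pr (Xp ξ sA f ch S) ps
  have e : ∀ f, HL r m ξ W sA L f = comb fun S => I S f := fun f => by
    have hav : ∀ S, I S f = av fun ch =>
        J m (baseW (B := B) (K := K) W) (r + 1) L [] (Pr (Xp ξ sA f ch S)) := fun S => by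
      simp only [I, av, div_eq_mul_inv]
      rw [hJ.mul_const, hJ.sum]
    simp only [hav, HL, comb, av, sum_sub_distrib, sum_add_distrib, ← mul_sum]
    rw [sum_comm (s := (univ : Finset (Fin K → Fin N × Ω₀))), ← Finset.sum_div]
    ring
  have hI : ∀ S, Integrable (I S) (Measure.pi fun _ => η) ∧ _ := fun S =>
    hJ.integral fun ps => integrable_integrand (sA := sA) hf hξ S ps
  simp only [e]
  have i1 := ((hI fun _ => true).1.const_mul (1 / (K : ℝ))).add
    ((hI fun _ => false).1.const_mul (1 - 1 / (K : ℝ)))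
  have i2 := (integrable_finsetSum univ fun (ℓ : Fin K) _ => (hI fun j => decide (j = ℓ)).1).const_mul
    (1 / (K : ℝ))
  refine ⟨i1.sub i2, ?_⟩
  simp only [comb]
  rw [integral_sub (f := fun f => 1 / (K : ℝ) * I (fun _ => true) f + (1 - 1 / (K : ℝ)) *
      I (fun _ => false) f) (g := fun f => 1 / (K : ℝ) * ∑ ℓ, I (fun j => decide (j = ℓ)) f) i1 i2,
    integral_add (f := fun f => 1 / (K : ℝ) * I (fun _ => true) f)
      (g := fun f => (1 - 1 / (K : ℝ)) * I (fun _ => false) f)
      ((hI _).1.const_mul _) ((hI _).1.const_mul _),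
    integral_const_mul, integral_const_mul, integral_const_mul,
    integral_finsetSum _ fun ℓ _ => (hI _).1]
  simp only [I]
  simp only [(hI _).2]
  let Ah : List (List A) → ℝ := fun pA =>
    ∫ f, (av fun x : Fin N × Ω₀ => Pr (fun p => fval f (sA p x.1)) pA) ∂η
  let Bh : List (List B) → ℝ := fun pB =>
    ∫ f, (av fun x : Fin N × Ω₀ => Pr (fun p => fmean f (ξ x.2 p)) pB) ∂η
  set β := J m (fun _ : List B => (1 : ℝ)) (r + 1) L [] Bh with hβ
  have hone : J m (fun _ : List B => (1 : ℝ)) (r + 1) L [] (fun _ => 1) = 1 :=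
    (isExp_J (fun _ => one_pos) (r + 1) L []).const 1
  have key : ∀ S : Fin K → Bool, J m (baseW (B := B) (K := K) W) (r + 1) L [] (fun ps => ∏ j,
      if S j then Ah (ps.map fun p => p.map Prod.fst)
      else Bh (ps.map fun p => p.map fun o => o.2 j)) =
      J m W (r + 1) L [] (fun pA => ∏ j, if S j then Ah pA else 1) *
        ∏ j, if S j then 1 else β := fun S => by
    have := J_slots (m := m) (B := B) (K := K) hW (r + 1) L (fun pA => ∏ j, if S j then Ah pA else 1)
      fun j => if S j then fun _ => 1 else Bh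
    convert this using 2
    · funext ps
      rw [← prod_mul_distrib]
      exact prod_congr rfl fun j _ => by split_ifs <;> simp
    · refine prod_congr rfl fun j _ => ?_
      split_ifs
      · exact hone.symm
      · rfl
  simp only [Ah, Bh] at key
  have key' : ∀ S : Fin K → Bool, J m (baseW (B := B) (K := K) W) (r + 1) L [] (fun ps =>
      ∫ f : Fin K → ℝ × ℝ, (av fun ch => Pr (Xp ξ sA f ch S) ps) ∂Measure.pi (fun _ => η)) = _ :=
    fun S => (congrArg _ (funext fun ps => integral_integrand S ps)).trans (key S)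
  simp only [key']
  simp only [if_true, Bool.false_eq_true, if_false, prod_const, card_univ, Fintype.card_fin,
    mul_one, one_pow, decide_eq_true_eq]
  have hp : ∀ (ℓ : Fin K) (g : ℝ), (∏ j : Fin K, if j = ℓ then g else 1) = g := fun ℓ g => by
    rw [prod_ite_eq' univ ℓ fun _ => g]; simp
  have hq : ∀ ℓ : Fin K, (∏ j : Fin K, if j = ℓ then 1 else β) = β ^ (K - 1) := fun ℓ => by
    rw [prod_skip ℓ fun _ => β, prod_const, card_erase_of_mem (mem_univ ℓ), card_univ,
      Fintype.card_fin]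
  have hA := isExp_J (m := m) (w := W) hW (r + 1) L []
  simp only [hp, hq, sum_const, card_univ, Fintype.card_fin, nsmul_eq_mul, hA.const 1, one_mul]
  have h3 := hA.mono (F := fun pA => (K : ℝ) * Ah pA * β ^ (K - 1))
    (G := fun pA => Ah pA ^ K + ((K : ℝ) - 1) * β ^ K) fun pA => three_term hK hK2 _ _
  rw [hA.mul_const, hA.const_mul, hA.add, hA.const] at h3
  have hKp : (0 : ℝ) < K := by exact_mod_cast NeZero.pos K
  have key2 : 0 ≤ 1 / (K : ℝ) * (J m W (r + 1) L [] (fun pA => Ah pA ^ K) + ((K : ℝ) - 1) * β ^ K -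
      (K : ℝ) * J m W (r + 1) L [] Ah * β ^ (K - 1)) :=
    mul_nonneg (by positivity) (by linarith)
  refine le_of_le_of_eq key2 ?_
  simp only [Ah]
  field_simp

variable {μ : Measure (Clause K)} {β : Measure ℝ} {ρ : Measure ℝ}

omit [IsProbabilityMeasure η] in
lemma integral_comb_relT_nonpos (H : Hyp μ β η ρ) (hK : Even K) (hK2 : 2 ≤ K)
    (E : Exps (r + 1) m) (hξ : ∀ o l, |ξ o l| ≤ 1) (hW : ∀ p, 0 < W p) {t : ℝ} (ht0 : 0 ≤ t)
    (ht1 : t < 1) :
    ∫ c, (av fun ch => comb (relT r m ξ W sA t c ch)) ∂μ ≤ 0 := by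
  have := H.pμ; have := H.pβ; have := H.pη
  set F := fun (L : List (Tree r)) (c : Clause K) =>
    coefTop r m L * t ^ leaves (r + 1) L * ((-c.1.2) ^ leaves (r + 1) L * HL r m ξ W sA L c.2)
  have hF : ∀ L c, F L c = coefTop r m L * (-(t * c.1.2)) ^ leaves (r + 1) L *
      HL r m ξ W sA L c.2 := fun L c => by
    simp only [F]; rw [← mul_neg, mul_pow]; ring
  have hpow : ∀ n : ℕ, Integrable (fun b : ℝ => (-b) ^ n) β := fun n =>
    Integrable.of_bound (by fun_prop) 1 (H.hb.mono fun c hc => by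
      rw [Real.norm_eq_abs, abs_pow, abs_neg]; exact pow_le_one₀ (abs_nonneg _) hc.le)
  have hH := fun L : List (Tree r) => integral_HL_nonneg (m := m) (sA := sA) hK hK2 H.hf hξ hW L
  set G := fun (L : List (Tree r)) (q : ℝ × (Fin K → ℝ × ℝ)) =>
    coefTop r m L * t ^ leaves (r + 1) L * ((-q.1) ^ leaves (r + 1) L * HL r m ξ W sA L q.2)
  have hGi : ∀ L, Integrable (G L) (μ.map fun c => (c.1.2, c.2)) := fun L => by
    rw [H.marg]
    exact ((hpow (leaves (r + 1) L)).mul_prod (hH L).1).const_mul _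
  have hFi : ∀ L, Integrable (F L) μ := fun L =>
    (hGi L).comp_measurable measurable_bf
  have hnn : ∀ L, 0 ≤ ∫ c, F L c ∂μ := fun L => by
    have e := (integral_map measurable_bf.aemeasurable (hGi L).1).symm
    refine le_of_le_of_eq ?_ e.symm
    rw [H.marg, integral_const_mul]
    refine mul_nonneg (mul_nonneg (coefTop_nonneg E L) (pow_nonneg ht0 _)) ?_
    rw [integral_prod_mul (fun b : ℝ => (-b) ^ leaves (r + 1) L)
      (fun f : Fin K → ℝ × ℝ => HL r m ξ W sA L f)]
    refine mul_nonneg ?_ (hH L).2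
    rcases Nat.eq_zero_or_pos (leaves (r + 1) L) with h | h
    · simp [h]
    · exact H.hpos _ h
  have hsum : Summable fun L : List (Tree r) => coefTop r m L * t ^ leaves (r + 1) L * 2 := by
    have := (hasSum_log E (Ω := B) (w := fun _ => 1) (y := t) (X := fun _ => 1) (fun _ => one_pos)
      (fun _ => by rwa [mul_one, abs_of_nonneg ht0])).summable
    refine (this.congr fun L => ?_).mul_right 2
    have h1 : Pr (fun _ : List B => (1 : ℝ)) = fun _ => 1 := by funext l; simp [Pr]
    rw [h1, (isExp_J (fun _ => one_pos) (r + 1) L []).const, mul_one]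
  have hbd : ∀ L, ∫ c, ‖F L c‖ ∂μ ≤ coefTop r m L * t ^ leaves (r + 1) L * 2 := by
    intro L
    refine (integral_mono_ae (hFi L).norm
      (integrable_const (coefTop r m L * t ^ leaves (r + 1) L * 2)) ?_).trans_eq (by simp)
    filter_upwards [H.valid] with c hc
    have hb : |HL r m ξ W sA L c.2| ≤ 2 := abs_av_le fun ch => by
      refine (abs_comb_le (C := 1) fun S => ?_).trans_eq (mul_one 2)
      exact (isExp_J (fun p => hW _) (r + 1) L []).bound
        (abs_Pr_le fun p => abs_Xs_le hξ hc.2.2 _ _ _ _)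
    have hp : |(-c.1.2) ^ leaves (r + 1) L| ≤ 1 := by
      rw [abs_pow, abs_neg]; exact pow_le_one₀ (abs_nonneg _) hc.2.1.le
    have hc0 := mul_nonneg (coefTop_nonneg E L) (pow_nonneg ht0 (leaves (r + 1) L))
    simp only [F]
    rw [Real.norm_eq_abs, abs_mul, abs_of_nonneg hc0, abs_mul]
    exact mul_le_mul_of_nonneg_left (by
      simpa using mul_le_mul hp hb (abs_nonneg _) zero_le_one) hc0
  have hs := hasSum_integral_of_summable_integral_norm hFi
    (hsum.of_nonneg_of_le (fun L => integral_nonneg fun c => norm_nonneg _) hbd)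
  have hae : (fun c => ∑' L, F L c) =ᵐ[μ]
      fun c => -av fun ch => comb (relT r m ξ W sA t c ch) := by
    filter_upwards [H.valid] with c hc
    simp only [hF]
    exact (hasSum_av_comb E hξ hW hc ht0 ht1.le).tsum_eq
  rw [integral_congr_ae hae, integral_neg] at hs
  have := hs.nonneg hnn
  linarith

omit [IsProbabilityMeasure η] in
/-- **the one-clause inequality** -/
theorem clause_step (H : Hyp μ β η ρ) (hK : Even K) (hK2 : 2 ≤ K) (E : Exps (r + 1) m)
    (hξ : ∀ o l, |ξ o l| ≤ 1) (hW : ∀ p, 0 < W p) :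
    Integrable (fun c => av fun ch => comb (withClause r m ξ W sA c ch)) μ ∧
      ∫ c, (av fun ch => comb (withClause r m ξ W sA c ch)) ∂μ ≤ 0 := by
  have := H.pμ; have := H.pβ; have := H.pη
  have e : (fun c => av fun ch => comb (withClause r m ξ W sA c ch)) =ᵐ[μ]
      fun c => av fun ch => comb (relT r m ξ W sA 1 c ch) := by
    filter_upwards [H.valid] with c hc
    congr 1
    funext ch
    simp only [comb, withClause_eq E hξ hW hc, sum_add_distrib, sum_const, card_univ,
      Fintype.card_fin, nsmul_eq_mul]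
    have : (K : ℝ) ≠ 0 := by exact_mod_cast NeZero.ne K
    field_simp
    ring
  have hb : ∀ t : ℝ, 0 ≤ t → t ≤ 1 → ∀ᵐ c ∂μ,
      ‖av fun ch => comb (relT r m ξ W sA t c ch)‖ ≤ 4 * cb c := fun t h0 h1 => by
    filter_upwards [H.valid] with c hc
    exact abs_av_le fun ch => abs_comb_relT_le E hξ hW hc h0 h1 ch
  refine ⟨((H.integrable_cb.const_mul 4).mono' (measurable_av_comb 1).aestronglyMeasurable
    (hb 1 zero_le_one le_rfl)).congr e.symm, ?_⟩
  rw [integral_congr_ae e]
  set u : ℕ → ℝ := fun n => 1 - 1 / ((n : ℝ) + 1)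
  have hu0 : ∀ n, 0 ≤ u n := fun n => sub_nonneg.2 ((div_le_one (by positivity)).2 (by linarith [Nat.cast_nonneg (α := ℝ) n]))
  have hu1 : ∀ n, u n < 1 := fun n => sub_lt_self _ (by positivity)
  have hu : Tendsto u atTop (𝓝 1) := by
    simpa [u] using (tendsto_const_nhds (x := (1 : ℝ))).sub
      (tendsto_one_div_add_atTop_nhds_zero_nat (𝕜 := ℝ))
  have hlim := tendsto_integral_of_dominated_convergence (μ := μ)
    (F := fun n c => av fun ch => comb (relT r m ξ W sA (u n) c ch))
    (f := fun c => av fun ch => comb (relT r m ξ W sA 1 c ch)) (fun c => 4 * cb c)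
    (fun n => (measurable_av_comb _).aestronglyMeasurable) (H.integrable_cb.const_mul 4)
    (fun n => hb _ (hu0 n) (hu1 n).le) ?_
  · exact le_of_tendsto' hlim fun n => integral_comb_relT_nonpos H hK hK2 E hξ hW (hu0 n) (hu1 n)
  filter_upwards [H.valid] with c hc
  have hr : ∀ ch S, Tendsto (fun n => relT r m ξ W sA (u n) c ch S) atTop
      (𝓝 (relT r m ξ W sA 1 c ch S)) := fun ch S => by
    have hpos : ∀ p : List (Ext A B K), 0 < baseW W p * (1 + 1 * c.1.2 * Xp ξ sA c.2 ch S p) :=
      fun p => mul_pos (hW _) (by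
        unfold Xp
        linarith [(abs_lt.1 (abs_tbX_lt hξ hc (t := 1) (by simp) ch S (sA (p.map Prod.fst))
          fun j => p.map fun o => o.2 j)).1])
    refine ((tendsto_Z hpos (fun p => ?_) _ _).log (Z_pos hpos _ _).ne').sub tendsto_const_nhds
    exact tendsto_const_nhds.mul (tendsto_const_nhds.add ((hu.mul_const _).mul_const _))
  unfold av comb
  exact (tendsto_finsetSum _ fun ch _ => (((hr ch _).const_mul _).add ((hr ch _).const_mul _)).sub
    ((tendsto_finsetSum _ fun ℓ _ => hr ch _).const_mul _)).div_const _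

end Vale.Agent.P168.MP.Upper
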