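import Vale.Agent.P168.MP.Upper.Hybrid

/-! Restriction to sub-families of i.i.d. coordinates, binomial counts and Poisson thinning. -/

namespace Vale.Agent.P168.MP.Upper

open Finset Real MeasureTheory ProbabilityTheory

/-- an injective reindexing of i.i.d. coordinates preserves the law -/
lemma measurePreserving_comp_inj {α : Type} [MeasurableSpace α] (μ : Measure α)
    [IsProbabilityMeasure μ] {a n : ℕ} {ι : Fin a → Fin n} (hι : Function.Injective ι) :
    MeasurePreserving (fun w : Fin n → α => w ∘ ι) (Measure.pi fun _ => μ)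
      (Measure.pi fun _ => μ) := by
  have h := (iIndepFun_pi (μ := fun _ : Fin n => μ) (X := fun _ => (id : α → α))
    fun _ => aemeasurable_id).precomp hι
  simp only [id_eq] at h
  rw [iIndepFun_iff_map_fun_eq_pi_map fun i => (measurable_pi_apply (ι i)).aemeasurable] at h
  refine ⟨measurable_pi_lambda _ fun i => measurable_pi_apply (ι i), ?_⟩
  refine h.trans (congrArg Measure.pi (funext fun i => ?_))
  exact (measurePreserving_eval (fun _ : Fin n => μ) (ι i)).map_eq

lemma integral_comp_inj {α : Type} [MeasurableSpace α] {μ : Measure α}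
    [IsProbabilityMeasure μ] {a n : ℕ} {ι : Fin a → Fin n} (hι : Function.Injective ι)
    {F : (Fin a → α) → ℝ} (hF : Measurable F) :
    ∫ w : Fin n → α, F (w ∘ ι) ∂Measure.pi (fun _ => μ) = ∫ w, F w ∂Measure.pi fun _ => μ := by
  have mp := measurePreserving_comp_inj μ hι
  have h := integral_map (μ := Measure.pi fun _ : Fin n => μ) mp.measurable.aemeasurable
    (f := F) hF.aestronglyMeasurable
  rw [mp.map_eq] at h
  exact h.symm

lemma av_comp_inj {α γ β : Type} [Fintype α] [Fintype γ] [DecidableEq α] [DecidableEq γ]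
    [Fintype β] [Nonempty β] {ι : α → γ} (hι : Function.Injective ι) (F : (α → β) → ℝ) :
    av (fun f : γ → β => F (f ∘ ι)) = av F := by
  classical
  let e : α ⊕ {x // ¬ x ∈ Set.range ι} ≃ γ :=
    ((Equiv.ofInjective ι hι).sumCongr (Equiv.refl _)).trans (Equiv.sumCompl (· ∈ Set.range ι))
  let E : (γ → β) ≃ (α → β) × ({x // ¬ x ∈ Set.range ι} → β) :=
    ((Equiv.arrowCongr e (Equiv.refl β)).symm).trans (Equiv.sumArrowEquivProdArrow _ _ _)
  have : ∀ f : γ → β, f ∘ ι = (E f).1 := fun f => by
    funext a
    simp [E, e, Equiv.sumArrowEquivProdArrow]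
  simp only [this]
  rw [av_equiv E fun q => F q.1, av_prod fun (f : α → β) (_ : {x // ¬ x ∈ Set.range ι} → β) => F f]
  simp only [av_const]

lemma av_coord {γ β : Type} [Fintype γ] [DecidableEq γ] [Fintype β] [Nonempty β] (k : γ)
    (g : β → ℝ) : av (fun f : γ → β => g (f k)) = av g := by
  have h := av_comp_inj (β := β) (ι := fun _ : Unit => k) (fun _ _ _ => rfl) fun f => g (f ())
  exact h.trans (av_equiv (Equiv.funUnique Unit β) g)

/-- a map with uniform fibres, applied coordinatewise -/
lemma av_map {X Y : Type} [Fintype X] [Fintype Y] (p : X → Y)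
    (hp : ∀ F : Y → ℝ, av (fun x => F (p x)) = av F) :
    ∀ {n : ℕ} (G : (Fin n → Y) → ℝ), av (fun f : Fin n → X => G (p ∘ f)) = av G
  | 0, G => by
    simp only [av, Fintype.sum_unique, Fintype.card_unique]
    exact congrArg (fun f => G f / _) (Subsingleton.elim _ _)
  | n + 1, G => by
    rw [av_insertNth 0, av_insertNth 0 G]
    have e : ∀ (f : Fin n → X) (x : X),
        p ∘ (Fin.insertNth 0 x f) = Fin.insertNth 0 (p x) (p ∘ f) := fun f x => by
      rw [Fin.insertNth_zero', Fin.insertNth_zero', Fin.comp_cons]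
    simp only [e]
    refine Eq.trans ?_ (av_map p hp fun f => av fun y => G (Fin.insertNth 0 y f))
    exact congrArg av (funext fun f => hp fun y => G (Fin.insertNth 0 y (p ∘ f)))

/-! ### binomial counts -/

/-- number of `true` entries -/
def cnt {n : ℕ} (e : Fin n → Bool) : ℕ := (univ.filter fun k => e k = true).card

/-- expectation of `G (number of successes) (number of failures)` in `n` trials -/
noncomputable def bin (p : ℝ) (n : ℕ) (G : ℕ → ℕ → ℝ) : ℝ :=
  ∑ e : Fin n → Bool, (∏ k, if e k then p else 1 - p) * G (cnt e) (n - cnt e)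

lemma bin_eq (p : ℝ) (n : ℕ) (G : ℕ → ℕ → ℝ) :
    bin p n G = ∑ q ∈ antidiagonal n, (n.choose q.1 : ℝ) * p ^ q.1 * (1 - p) ^ q.2 * G q.1 q.2 := by
  let E : (Fin n → Bool) ≃ Finset (Fin n) :=
    { toFun := fun e => univ.filter fun k => e k = true
      invFun := fun s k => decide (k ∈ s)
      left_inv := fun e => by funext k; simp
      right_inv := fun s => by ext k; simp }
  have h : ∀ e, (∏ k, if e k then p else 1 - p) * G (cnt e) (n - cnt e) =
      (fun s : Finset (Fin n) => p ^ s.card * (1 - p) ^ (n - s.card) * G s.card (n - s.card)) (E e) :=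
    fun e => by
      have hc := card_filter_add_card_filter_not (s := (univ : Finset (Fin n)))
        (fun k => e k = true)
      simp only [card_univ, Fintype.card_fin] at hc
      simp only [prod_ite, prod_const, cnt, E, Equiv.coe_fn_mk]
      rw [show (univ.filter fun k => ¬e k = true).card = n - (univ.filter fun k => e k = true).card
        by omega]
  rw [bin, sum_congr rfl fun e _ => h e,
    E.sum_comp fun s => p ^ s.card * (1 - p) ^ (n - s.card) * G s.card (n - s.card), ← powerset_univ,
    sum_powerset_apply_card fun c => p ^ c * (1 - p) ^ (n - c) * G c (n - c),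
    Finset.Nat.sum_antidiagonal_eq_sum_range_succ
      fun a b => (n.choose a : ℝ) * p ^ a * (1 - p) ^ b * G a b]
  simp [mul_assoc]

/-- the number of uniform positions equal to a given site is binomial -/
lemma av_fibre {N n : ℕ} [NeZero N] (v : Fin N) (G : ℕ → ℕ → ℝ) :
    av (fun pv : Fin n → Fin N =>
        G (cnt fun k => decide (pv k = v)) (n - cnt fun k => decide (pv k = v))) =
      bin (1 / N) n G := by
  have h : ∀ pv : Fin n → Fin N,
      G (cnt fun k => decide (pv k = v)) (n - cnt fun k => decide (pv k = v)) =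
        ∑ e : Fin n → Bool, (∏ k, if e k = decide (pv k = v) then (1 : ℝ) else 0) *
          G (cnt e) (n - cnt e) := fun pv => by
    rw [sum_eq_single (fun k => decide (pv k = v)) (fun e _ he => ?_) (by simp)]
    · simp
    · obtain ⟨k, hk⟩ := Function.ne_iff.1 he
      rw [prod_eq_zero (mem_univ k) (if_neg hk), zero_mul]
  simp only [h]
  rw [av_sum, bin]
  refine sum_congr rfl fun e _ => ?_
  rw [av_mul_const, av_pi fun k x => if e k = decide (x = v) then (1 : ℝ) else 0]
  congr 1
  refine prod_congr rfl fun k _ => ?_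
  have hN : (N : ℝ) ≠ 0 := by exact_mod_cast NeZero.ne N
  have e1 : ∑ x : Fin N, (if x = v then (0 : ℝ) else 1) = N - 1 := by
    rw [← sum_erase_add _ _ (mem_univ v), sum_congr rfl fun x hx => if_neg (ne_of_mem_erase hx)]
    simp [Nat.cast_sub (NeZero.one_le (n := N))]
  cases e k
  · simp [av, e1]; field_simp
  · simp [av]

/-! ### Poisson thinning -/

lemma pois_mul_pois (R p : ℝ) (a b : ℕ) :
    pois (R * p) a * pois (R * (1 - p)) b =
      pois R (a + b) * ((a + b).choose a : ℝ) * p ^ a * (1 - p) ^ b := by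
  rw [Nat.cast_choose ℝ (Nat.le_add_right a b), Nat.add_sub_cancel_left]
  simp only [pois, mul_pow, pow_add]
  have e : exp (-(R * p)) * exp (-(R * (1 - p))) = exp (-R) := by rw [← exp_add]; ring_nf
  rw [← e]
  field_simp

lemma hasSum_thin {R p S : ℝ} {G : ℕ → ℕ → ℝ}
    (h : HasSum (fun q : ℕ × ℕ => pois (R * p) q.1 * pois (R * (1 - p)) q.2 * G q.1 q.2) S) :
    HasSum (fun n => pois R n * bin p n G) S := by
  rw [← Finset.HasAntidiagonal.sigmaAntidiagonalEquivProd.hasSum_iff] at h
  refine h.sigma fun n => ?_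
  rw [bin_eq, mul_sum, ← sum_attach]
  convert hasSum_fintype _ using 1
  refine sum_congr rfl fun q _ => ?_
  have hq : q.1.1 + q.1.2 = n := Finset.HasAntidiagonal.mem_antidiagonal.1 q.2
  simp only [Function.comp_apply, Finset.HasAntidiagonal.sigmaAntidiagonalEquivProd_apply]
  rw [pois_mul_pois, hq]
  ring

lemma hasSum_pair {s t F₁ F₂ : ℝ} {f g : ℕ → ℝ} (hf : HasSum (fun a => pois s a * f a) F₁)
    (hg : HasSum (fun b => pois t b * g b) F₂) :
    HasSum (fun q : ℕ × ℕ => pois s q.1 * pois t q.2 * (f q.1 + g q.2)) (F₁ + F₂) := by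
  have h1 := hf.mul (hasSum_pois t)
    (summable_mul_of_summable_norm hf.summable.norm (hasSum_pois t).summable.norm)
  have h2 := (hasSum_pois s).mul hg
    (summable_mul_of_summable_norm (hasSum_pois s).summable.norm hg.summable.norm)
  rw [mul_one] at h1
  rw [one_mul] at h2
  exact (h1.add h2).congr_fun fun q => by ring

end Vale.Agent.P168.MP.Upper
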