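import Vale.Agent.P168.MP.Upper.Count

/-! The two ends of the hybrid: full and message-only clauses give the pressure and a multiple of the
message-only value; clauses with one configuration slot give a sum over sites. -/

namespace Vale.Agent.P168.MP.Upper

open Finset Real MeasureTheory

variable {N K n r : ℕ} {B Ω₀ : Type} [Fintype B] [Fintype Ω₀] {m : ℕ → ℝ} {ξ : Ω₀ → List B → ℝ}

lemma integrable_inj {α : Type} [MeasurableSpace α] {μ : Measure α} [IsProbabilityMeasure μ]
    {a n : ℕ} {ι : Fin a → Fin n} (hι : Function.Injective ι) {F : (Fin a → α) → ℝ}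
    (hF : Integrable F (Measure.pi fun _ => μ)) :
    Integrable (fun w : Fin n → α => F (w ∘ ι)) (Measure.pi fun _ => μ) :=
  (measurePreserving_comp_inj μ hι).integrable_comp_of_integrable hF

omit [Fintype Ω₀] in
lemma measurable_LZ_right (h : Fin N → ℝ) (ch : Fin n → Fin K → Fin N × Ω₀)
    (S : Fin n → Fin K → Bool) :
    Measurable fun w : Fin n → Clause K => LZ r m ξ h w ch S := by
  unfold LZ
  refine Real.measurable_log.comp (measurable_Z (fun p => ?_) _ _)
  unfold Wn
  exact measurable_const.mul (Finset.measurable_prod _ fun k _ =>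
    (measurable_Cs ξ _ _ _ _).comp (measurable_pi_apply k))

/-- `Z` of a function of the last mark only -/
lemma Z_last {A : Type} [Fintype A] [Nonempty A] (hm : ∀ l, 0 < m l) (d : A) {F : A → ℝ}
    (hF : ∀ a, 0 ≤ F a) :
    ∀ (k : ℕ) (pre : List A), m (pre.length + k + 1) = 1 →
      Z m (fun p => F (p.getLastD d)) (k + 1) pre = avg F
  | 0, pre, h => by
    simp only [Nat.add_zero] at h
    rw [Z_succ]
    simp only [Z_zero, List.getLastD_concat, h, rpow_one, one_div_one]
  | k + 1, pre, h => by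
    rw [Z_succ]
    simp only [fun a => Z_last hm d hF k (pre ++ [a]) (by
      simpa [show pre.length + 1 + k + 1 = pre.length + (k + 1) + 1 by omega] using h), avg_const]
    rw [← rpow_mul (avg_nonneg hF), mul_one_div_cancel (hm _).ne', rpow_one]

omit [Fintype B] in
lemma getLastD_map {α γ : Type} (f : α → γ) (d : α) :
    ∀ l : List α, (l.map f).getLastD (f d) = f (l.getLastD d) := fun l => by
  rcases List.eq_nil_or_concat l with rfl | ⟨l, a, rfl⟩ <;> simp

/-- the value of a message-only clause -/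
noncomputable def vp (r : ℕ) (m : ℕ → ℝ) (ξ : Ω₀ → List B → ℝ) (c : Clause K)
    (c₀ : Fin K → Fin N × Ω₀) : ℝ :=
  log (Z m (fun q : List (Fin K → B) => Cs ξ c c₀ (fun _ => false) (fun _ => false)
    fun j => q.map fun o => o j) (r + 1) [])

/-- the Gibbs factor of the full clauses -/
noncomputable def AW (ξ : Ω₀ → List B → ℝ) (h : Fin N → ℝ) (w : Fin n → Clause K)
    (ch : Fin n → Fin K → Fin N × Ω₀) (e : Fin n → Bool) (σ : Fin N → Bool) : ℝ :=
  exp (fieldSum h σ) *
    ∏ k, if e k then Cs ξ (w k) (ch k) (fun _ => true) σ (fun _ => []) else 1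

omit [Fintype B] [Fintype Ω₀] in
lemma AW_pos (hξ : ∀ o l, |ξ o l| ≤ 1) (h : Fin N → ℝ) {w : Fin n → Clause K}
    (hw : ∀ k, P168.Valid (w k)) (ch : Fin n → Fin K → Fin N × Ω₀) (e : Fin n → Bool)
    (σ : Fin N → Bool) : 0 < AW ξ h w ch e σ :=
  mul_pos (exp_pos _) (prod_pos fun k _ => by
    split_ifs <;> first | exact Cs_pos hξ (hw k) _ _ _ _ | exact one_pos)

omit [Fintype Ω₀] in
lemma LZ_fullNone [Nonempty B] (E : Exps (r + 1) m) (hξ : ∀ o l, |ξ o l| ≤ 1) (h : Fin N → ℝ)
    {w : Fin n → Clause K} (hw : ∀ k, P168.Valid (w k)) (ch : Fin n → Fin K → Fin N × Ω₀)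
    (e : Fin n → Bool) :
    LZ r m ξ h w ch (fullNone K ∘ e) =
      log (avg (AW ξ h w ch e)) + ∑ k, if e k then 0 else vp r m ξ (w k) (ch k) := by
  let F : List (Fin N → Bool) → ℝ := fun p => AW ξ h w ch e (p.getLastD fun _ => false)
  let G : Fin n → List (Fin K → B) → ℝ := fun k q =>
    if e k then 1 else Cs ξ (w k) (ch k) (fun _ => false) (fun _ => false) fun j => q.map fun o => o j
  have hFp : ∀ p, 0 < F p := fun p => AW_pos hξ h hw ch e _
  have hGp : ∀ k q, 0 < G k q := fun k q => by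
    simp only [G]; split_ifs
    · exact one_pos
    · exact Cs_pos hξ (hw k) _ _ _ _
  have e1 : Wn ξ h w ch (fullNone K ∘ e) = fun p : List (Mk N K n B) =>
      F (p.map fun o => ((Equiv.refl _ : Mk N K n B ≃ _) o).1) *
        (fun q : List (Fin n → Fin K → B) => ∏ k, G k (q.map fun o => (Equiv.refl (Fin n → Fin K → B)) o k))
          (p.map fun o => ((Equiv.refl _ : Mk N K n B ≃ _) o).2) := by
    funext p
    simp only [F, G, AW, Wn, Equiv.refl_apply, List.map_map, Function.comp_def, spins]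
    rw [mul_assoc, ← prod_mul_distrib]
    congr 1
    refine prod_congr rfl fun k _ => ?_
    rcases hek : e k
    · simp [fullNone, Cs, Xs]
    · simp [fullNone, Cs, Xs]
  rw [LZ, e1, Z_prod _ (G := fun q : List (Fin n → Fin K → B) =>
      ∏ k, G k (q.map fun o => (Equiv.refl (Fin n → Fin K → B)) o k)) (fun p => (hFp p).le)
      (fun q => prod_nonneg fun k _ => (hGp k _).le),
    Z_pi (Equiv.refl (Fin n → Fin K → B)) (fun k q => (hGp k q).le),
    log_mul (Z_pos hFp _ _).ne' (prod_pos fun k _ => Z_pos (hGp k) _ _).ne',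
    log_prod fun k _ => (Z_pos (hGp k) _ _).ne']
  congr 1
  · simp only [F, List.map_nil]
    rw [Z_last E.pos (fun _ => false) (fun σ => (AW_pos hξ h hw ch e σ).le) r []
      (by simpa using E.top)]
  · refine sum_congr rfl fun k _ => ?_
    rcases hek : e k
    · simp [G, hek, vp]
    · have : G k = fun _ => 1 := by funext q; simp [G, hek]
      simp [this, Z_const E.pos]

omit [Fintype B] [Fintype Ω₀] in
lemma AW_restrict (h : Fin N → ℝ) (w : Fin n → Clause K) (ch : Fin n → Fin K → Fin N × Ω₀)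
    (e : Fin n → Bool) {a : ℕ} (ε : Fin a ≃ {k // e k = true}) :
    AW ξ h w ch e = AW ξ h (w ∘ fun i => (ε i).1) (ch ∘ fun i => (ε i).1) fun _ => true := by
  funext σ
  simp only [AW, if_true, Function.comp_apply]
  congr 1
  rw [← prod_filter, prod_subtype (univ.filter fun k => e k = true) (p := fun k => e k = true)
    (by simp) (fun k => Cs ξ (w k) (ch k) (fun _ => true) σ fun _ => []), ← ε.prod_comp]

omit [Fintype Ω₀] in
lemma LZ_all [Nonempty B] (E : Exps (r + 1) m) (hξ : ∀ o l, |ξ o l| ≤ 1) (h : Fin N → ℝ)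
    {w : Fin n → Clause K} (hw : ∀ k, P168.Valid (w k)) (ch : Fin n → Fin K → Fin N × Ω₀) :
    LZ r m ξ h w ch (fun _ => fullNone K true) =
      logZ h w (fun k j => (ch k j).1) - N * log 2 := by
  refine (LZ_fullNone E hξ h hw ch fun _ => true).trans ?_
  simp only [if_true, sum_const_zero, add_zero]
  have e : ∀ σ : Fin N → Bool, AW ξ h w ch (fun _ => true) σ =
      exp (∑ k, theta (w k) (fun j => σ (ch k j).1) + ∑ x, h x * sg (σ x)) := fun σ => by
    rw [exp_add, exp_sum, mul_comm]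
    simp only [AW, if_true, fieldSum]
    congr 1
    exact prod_congr rfl fun k _ => by rw [exp_theta (hw k)]; simp [Cs, Xs]
  simp only [avg, e, logZ, Fintype.card_fun, Fintype.card_bool, Fintype.card_fin, Nat.cast_pow,
    Nat.cast_ofNat]
  rw [log_div (sum_pos (fun σ _ => exp_pos _) univ_nonempty).ne' (by positivity), log_pow]

/-! ### expectations at the full end -/

variable {μ : Measure (Clause K)} {β : Measure ℝ} {η : Measure (ℝ × ℝ)} {ρ : Measure ℝ}

omit [Fintype Ω₀] in
lemma measurable_vp (c₀ : Fin K → Fin N × Ω₀) :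
    Measurable fun c : Clause K => vp r m ξ c c₀ :=
  Real.measurable_log.comp (measurable_Z (fun _q => measurable_Cs ξ _ _ _ _) _ _)

omit [Fintype Ω₀] in
lemma integrable_vp [Nonempty B] (H : Hyp μ β η ρ) (E : Exps (r + 1) m)
    (hξ : ∀ o l, |ξ o l| ≤ 1) (c₀ : Fin K → Fin N × Ω₀) :
    Integrable (fun c => vp r m ξ c c₀) μ :=
  H.integrable_cb.mono' (measurable_vp c₀).aestronglyMeasurable (H.valid.mono fun _c hc =>
    abs_log_Z_le E.pos (fun _ => Cs_pos hξ hc _ _ _ _)
      (fun _ => abs_log_Cs_le hξ hc _ _ _ _) _ _)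

/-- the mean value of a message-only clause -/
noncomputable def vbar (N : ℕ) (r : ℕ) (m : ℕ → ℝ) (ξ : Ω₀ → List B → ℝ)
    (μ : Measure (Clause K)) : ℝ :=
  ∫ c, (av fun c₀ : Fin K → Fin N × Ω₀ => vp r m ξ c c₀) ∂μ

/-- `G` with all clauses full -/
noncomputable def gFull (r : ℕ) (m : ℕ → ℝ) (ξ : Ω₀ → List B → ℝ) (μ : Measure (Clause K))
    (h : Fin N → ℝ) (a : ℕ) : ℝ :=
  Gh r m ξ μ h (fun _ : Fin a => fullNone K true)

lemma Gh_fullNone [NeZero N] [Nonempty B] [Nonempty Ω₀] (H : Hyp μ β η ρ) (E : Exps (r + 1) m)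
    (hξ : ∀ o l, |ξ o l| ≤ 1) (h : Fin N → ℝ) (e : Fin n → Bool) :
    Gh r m ξ μ h (fullNone K ∘ e) =
      gFull r m ξ μ h (cnt e) + (n - cnt e : ℕ) * vbar N r m ξ μ := by
  have := H.pμ
  have hc : Fintype.card {k // e k = true} = cnt e := Fintype.card_subtype _
  let ε : Fin (cnt e) ≃ {k // e k = true} := (Fintype.equivFinOfCardEq hc).symm
  set ι : Fin (cnt e) → Fin n := fun i => (ε i).1
  have hι : Function.Injective ι := Subtype.val_injective.comp ε.injective
  let Φ : (Fin (cnt e) → Fin K → Fin N × Ω₀) → (Fin (cnt e) → Clause K) → ℝ := fun ch w =>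
    LZ r m ξ h w ch (fun _ => fullNone K true)
  have hΦm : ∀ ch, Measurable (Φ ch) := fun ch => by
    simp only [Φ]
    exact measurable_LZ_right h ch (fun _ => fullNone K true)
  have hΦi : ∀ ch, Integrable (Φ ch) (Measure.pi fun _ => μ) := fun ch => by
    simp only [Φ]
    exact integrable_LZ H E hξ h ch (fun _ => fullNone K true)
  have hΦ : ∀ ch : Fin n → Fin K → Fin N × Ω₀,
      Integrable (fun w : Fin n → Clause K => Φ (ch ∘ ι) (w ∘ ι)) (Measure.pi fun _ => μ) := fun ch =>
    integrable_inj hι (hΦi (ch ∘ ι))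
  have hv : ∀ (ch : Fin n → Fin K → Fin N × Ω₀) (k : Fin n), Integrable
      (fun w : Fin n → Clause K => if e k then 0 else vp r m ξ (w k) (ch k))
      (Measure.pi fun _ => μ) := fun ch k => by
    rcases e k
    · exact integrable_comp_eval (μ := fun _ : Fin n => μ) (i := k) (integrable_vp H E hξ (ch k))
    · exact integrable_zero _ _ _
  have key : ∀ ch : Fin n → Fin K → Fin N × Ω₀,
      ∫ w, LZ r m ξ h w ch (fullNone K ∘ e) ∂Measure.pi (fun _ : Fin n => μ) =
        ∫ w, Φ (ch ∘ ι) w ∂Measure.pi (fun _ => μ) +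
          ∑ k, if e k then 0 else ∫ c, vp r m ξ c (ch k) ∂μ := by
    intro ch
    rw [integral_congr_ae (g := fun w => Φ (ch ∘ ι) (w ∘ ι) +
        ∑ k, if e k then 0 else vp r m ξ (w k) (ch k)) ((H.valid_pi n).mono fun w hw => ?_)]
    · rw [integral_add (hΦ ch) (integrable_finsetSum _ fun k _ => hv ch k),
        integral_finsetSum _ fun k _ => hv ch k, integral_comp_inj hι (hΦm _)]
      congr 1
      refine sum_congr rfl fun k _ => ?_
      rcases e k
      · exact integral_comp_eval (μ := fun _ : Fin n => μ) (i := k)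
          (integrable_vp H E hξ (ch k)).1
      · exact integral_zero _ _
    · simp only
      rw [LZ_fullNone E hξ h hw ch e, AW_restrict h w ch e ε]
      simp only [Φ]
      have h2 := LZ_fullNone E hξ h (w := w ∘ ι) (fun i => hw _) (ch ∘ ι) (fun _ => true)
      simp only [if_true, sum_const_zero, add_zero] at h2
      rw [← h2]
      rfl
  rw [Gh, (integral_av fun ch => integrable_LZ H E hξ h ch _).2]
  simp only [key]
  rw [av_add, av_sum, av_comp_inj hι fun ch => ∫ w, Φ ch w ∂Measure.pi (fun _ => μ), gFull, Gh,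
    (integral_av fun ch => integrable_LZ H E hξ h ch _).2]
  congr 1
  have hk : ∀ k : Fin n, av (fun ch : Fin n → Fin K → Fin N × Ω₀ =>
      if e k then 0 else ∫ c, vp r m ξ c (ch k) ∂μ) = if e k then 0 else vbar N r m ξ μ := fun k => by
    rcases e k
    · simp only [Bool.false_eq_true, if_false]
      rw [av_coord k fun c₀ => ∫ c, vp r m ξ c c₀ ∂μ, vbar,
        (integral_av fun c₀ => integrable_vp H E hξ c₀).2]
    · simp only [if_true]
      exact av_const 0
  simp only [hk]
  rw [sum_ite, sum_const_zero, zero_add, sum_const, nsmul_eq_mul]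
  congr 2
  have := card_filter_add_card_filter_not (s := (univ : Finset (Fin n))) (fun k => e k = true)
  simp only [card_univ, Fintype.card_fin] at this
  simp only [cnt]
  omega

lemma gFull_eq [NeZero N] [Nonempty B] [Nonempty Ω₀] (H : Hyp μ β η ρ) (E : Exps (r + 1) m)
    (hξ : ∀ o l, |ξ o l| ≤ 1) (h : Fin N → ℝ) (a : ℕ) :
    gFull r m ξ μ h a =
      ∫ w : Fin a → Clause K, av (fun i => logZ h w i) ∂Measure.pi (fun _ => μ) - N * log 2 := by
  have := H.pμ
  have e : ∀ᵐ w ∂Measure.pi (fun _ : Fin a => μ),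
      (av fun ch => LZ r m ξ h w ch (fun _ => fullNone K true)) + N * log 2 =
        av fun i => logZ h w i := (H.valid_pi a).mono fun w hw => by
    simp only [LZ_all E hξ h hw, sub_eq_add_neg]
    rw [av_add, av_const, add_assoc, neg_add_cancel, add_zero]
    exact av_map (fun c₀ : Fin K → Fin N × Ω₀ => fun j => (c₀ j).1) (fun F => by
      exact av_map (fun x : Fin N × Ω₀ => x.1) (fun F => by
        rw [av_prod fun a (_ : Ω₀) => F a]; simp only [av_const]) F) fun i => logZ h w i
  rw [gFull, Gh, ← integral_congr_ae e, integral_add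
    (integral_av fun ch => integrable_LZ H E hξ h ch _).1 (integrable_const _)]
  simp

/-! ### sites -/

/-- the last spin of a site path -/
def last1 {ι : Type} (q : List (Bool × (ι → Fin K → B))) : Bool := (q.map Prod.fst).getLastD false

/-- the factor of a clause at its site -/
noncomputable def Cu (ξ : Ω₀ → List B → ℝ) (c : Clause K) (d : Fin K × (Fin K → Ω₀)) (s : Bool)
    (bs : Fin K → List B) : ℝ :=
  Cs ξ c (fun j => ((0 : Fin 1), d.2 j)) (single K d.1) (fun _ => s) bs

/-- the weight of a site and its clauses -/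
noncomputable def siteW (ξ : Ω₀ → List B → ℝ) {ι : Type} [Fintype ι] (x : ℝ) (w : ι → Clause K)
    (d : ι → Fin K × (Fin K → Ω₀)) (q : List (Bool × (ι → Fin K → B))) : ℝ :=
  exp (x * sg (last1 q)) * ∏ i, Cu ξ (w i) (d i) (last1 q) fun j => q.map fun o => o.2 i j

/-- the value of a site -/
noncomputable def site (r : ℕ) (m : ℕ → ℝ) (ξ : Ω₀ → List B → ℝ) {ι : Type} [Fintype ι]
    [DecidableEq ι] (x : ℝ) (w : ι → Clause K) (d : ι → Fin K × (Fin K → Ω₀)) : ℝ :=
  log (Z m (siteW ξ x w d) (r + 1) [])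

omit [Fintype B] [Fintype Ω₀] in
lemma siteW_pos (hξ : ∀ o l, |ξ o l| ≤ 1) {ι : Type} [Fintype ι] (x : ℝ) {w : ι → Clause K}
    (hw : ∀ i, P168.Valid (w i)) (d : ι → Fin K × (Fin K → Ω₀))
    (q : List (Bool × (ι → Fin K → B))) : 0 < siteW ξ x w d q :=
  mul_pos (exp_pos _) (prod_pos fun i _ => Cs_pos hξ (hw i) _ _ _ _)

omit [Fintype Ω₀] in
lemma abs_site_le [Nonempty B] (E : Exps (r + 1) m) (hξ : ∀ o l, |ξ o l| ≤ 1) (x : ℝ)
    {w : Fin n → Clause K} (hw : ∀ i, P168.Valid (w i)) (d : Fin n → Fin K × (Fin K → Ω₀)) :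
    |site r m ξ x w d| ≤ |x| + ∑ i, cb (w i) := by
  refine abs_log_Z_le E.pos (siteW_pos hξ x hw d) (fun q => ?_) _ _
  unfold siteW Cu
  rw [log_mul (exp_pos _).ne' (prod_pos fun i _ => Cs_pos hξ (hw i) _ _ _ _).ne', log_exp,
    log_prod fun i _ => (Cs_pos hξ (hw i) _ _ _ _).ne']
  refine (abs_add_le _ _).trans (add_le_add (le_of_eq ?_) ((abs_sum_le_sum_abs _ _).trans
    (sum_le_sum fun i _ => abs_log_Cs_le hξ (hw i) _ _ _ _)))
  simp [abs_mul]

omit [Fintype Ω₀] in
lemma measurable_site (d : Fin n → Fin K × (Fin K → Ω₀)) :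
    Measurable fun q : ℝ × (Fin n → Clause K) => site r m ξ q.1 q.2 d := by
  refine Real.measurable_log.comp (measurable_Z (fun p => ?_) _ _)
  unfold siteW Cu
  exact (by fun_prop : Measurable fun q : ℝ × (Fin n → Clause K) => exp (q.1 * sg (last1 p))).mul
    (Finset.measurable_prod _ fun k _ => (measurable_Cs ξ _ _ _ _).comp
      ((measurable_pi_apply k).comp measurable_snd))

omit [Fintype Ω₀] in
lemma site_congr {ι ι' : Type} [Fintype ι] [Fintype ι'] [DecidableEq ι] [DecidableEq ι']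
    (ε : ι' ≃ ι) (x : ℝ) (w : ι → Clause K) (d : ι → Fin K × (Fin K → Ω₀)) :
    site r m ξ x w d = site r m ξ x (w ∘ ε) (d ∘ ε) := by
  let e : (Bool × (ι → Fin K → B)) ≃ (Bool × (ι' → Fin K → B)) :=
    (Equiv.refl Bool).prodCongr (Equiv.arrowCongr ε.symm (Equiv.refl _))
  have h1 : ∀ p : List (Bool × (ι → Fin K → B)), last1 (p.map e) = last1 p := fun p => by
    simp only [last1, List.map_map]; rfl
  have h2 : ∀ (p : List (Bool × (ι → Fin K → B))) i j,
      (p.map e).map (fun o => o.2 i j) = p.map fun o => o.2 (ε i) j := fun p i j => by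
    simp only [List.map_map]; rfl
  have h : siteW ξ x w d = fun p => siteW ξ x (w ∘ ε) (d ∘ ε) (p.map e) := by
    funext p
    simp only [siteW, h1, h2, Function.comp_apply]
    rw [ε.prod_comp fun i => Cu ξ (w i) (d i) (last1 p) fun j => p.map fun o => o.2 i j]
  unfold site
  rw [h]
  exact congrArg log (Z_equiv (m := m) e (siteW ξ x (w ∘ ε) (d ∘ ε)) (r + 1) [])

/-- marks regrouped by the site read by each clause -/
def splitSites (pv : Fin n → Fin N) :
    Mk N K n B ≃ ((v : Fin N) → Bool × ({k // pv k = v} → Fin K → B)) where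
  toFun o v := (o.1 v, fun k => o.2 k.1)
  invFun g := (fun v => (g v).1, fun k => (g (pv k)).2 ⟨k, rfl⟩)
  left_inv o := rfl
  right_inv g := by
    funext v
    refine Prod.ext rfl (funext fun k => ?_)
    obtain ⟨k, rfl⟩ := k
    rfl

omit [Fintype Ω₀] in
lemma LZ_single [Nonempty B] (hξ : ∀ o l, |ξ o l| ≤ 1) (h : Fin N → ℝ)
    {w : Fin n → Clause K} (hw : ∀ k, P168.Valid (w k)) (ch : Fin n → Fin K → Fin N × Ω₀)
    (ℓ : Fin n → Fin K) :
    LZ r m ξ h w ch (single K ∘ ℓ) =
      ∑ v, site r m ξ (h v) (ι := {k // (ch k (ℓ k)).1 = v}) (fun k => w k.1)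
        fun k => (ℓ k.1, fun j => (ch k.1 j).2) := by
  set pv : Fin n → Fin N := fun k => (ch k (ℓ k)).1
  let F : (v : Fin N) → List (Bool × ({k // pv k = v} → Fin K → B)) → ℝ := fun v =>
    siteW ξ (h v) (fun k => w k.1) fun k => (ℓ k.1, fun j => (ch k.1 j).2)
  have hF : ∀ v q, 0 < F v q := fun v q => siteW_pos hξ _ (fun k => hw _) _ q
  have e1 : Wn ξ h w ch (single K ∘ ℓ) =
      fun p : List (Mk N K n B) => ∏ v, F v (p.map fun o => splitSites pv o v) := by
    funext p
    have hs : ∀ v, last1 (p.map fun o => splitSites (B := B) (K := K) pv o v) = spins p v := fun v => by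
      simp only [last1, spins]
      rw [← getLastD_map (fun σ : Fin N → Bool => σ v), List.map_map, List.map_map]
      rfl
    simp only [F, siteW, hs, prod_mul_distrib, ← exp_sum, Wn, fieldSum]
    congr 1
    rw [← Fintype.prod_fiberwise pv]
    refine prod_congr rfl fun v _ => prod_congr rfl fun k _ => ?_
    simp only [Function.comp_apply, List.map_map, Cu, Cs, Xs]
    congr 3
    refine prod_congr rfl fun j _ => ?_
    by_cases hj : j = ℓ k.1
    · subst hj; simp [single, ← k.2, pv]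
    · simp [single, hj, splitSites, Function.comp_def]
  rw [LZ, e1, Z_pi _ (fun v q => (hF v q).le), log_prod fun v _ => (Z_pos (hF v) _ _).ne']
  rfl

/-- mean value of a site with `a` clauses -/
noncomputable def uSite (r : ℕ) (m : ℕ → ℝ) (ξ : Ω₀ → List B → ℝ) (μ : Measure (Clause K))
    (x : ℝ) (a : ℕ) : ℝ :=
  ∫ w : Fin a → Clause K, (av fun d => site r m ξ x w d) ∂Measure.pi (fun _ => μ)

omit [Fintype Ω₀] in
lemma integrable_site [Nonempty B] (H : Hyp μ β η ρ) (E : Exps (r + 1) m)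
    (hξ : ∀ o l, |ξ o l| ≤ 1) (x : ℝ) (d : Fin n → Fin K × (Fin K → Ω₀)) :
    Integrable (fun w => site r m ξ x w d) (Measure.pi fun _ => μ) := by
  have := H.pμ
  exact ((integrable_const |x|).add (H.integral_sum_cb n).1).mono'
    ((measurable_site d).comp (measurable_const.prodMk measurable_id)).aestronglyMeasurable
    ((H.valid_pi n).mono fun w hw => abs_site_le E hξ x hw d)

lemma av_slot [NeZero N] [NeZero K] [Nonempty Ω₀] (F : Fin N × (Fin K × (Fin K → Ω₀)) → ℝ) :
    av (fun s : Fin K × (Fin K → Fin N × Ω₀) => F ((s.2 s.1).1, (s.1, fun j => (s.2 j).2))) =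
      av F := by
  rw [av_prod fun (l : Fin K) (c : Fin K → Fin N × Ω₀) => F ((c l).1, (l, fun j => (c j).2)),
    ← av_equiv ((Equiv.prodAssoc (Fin K) (Fin N) (Fin K → Ω₀)).symm.trans
      (((Equiv.prodComm _ _).prodCongr (Equiv.refl _)).trans (Equiv.prodAssoc _ _ _))) F]
  refine Eq.trans ?_ (av_prod fun (l : Fin K) (q : Fin N × (Fin K → Ω₀)) => F (q.1, (l, q.2))).symm
  refine congrArg av (funext fun l => ?_)
  refine (av_equiv (Equiv.arrowProdEquivProdArrow (Fin K) (fun _ => Fin N) (fun _ => Ω₀))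
      fun q => F (q.1 l, (l, q.2))).trans ?_
  rw [av_prod fun (p : Fin K → Fin N) (o : Fin K → Ω₀) => F (p l, (l, o)),
    av_coord l fun v => av fun o => F (v, (l, o)),
    av_prod fun (v : Fin N) (o : Fin K → Ω₀) => F (v, (l, o))]

/-- the mixed end -/
lemma sum_single [NeZero N] [NeZero K] [Nonempty B] [Nonempty Ω₀] (H : Hyp μ β η ρ)
    (E : Exps (r + 1) m) (hξ : ∀ o l, |ξ o l| ≤ 1) (h : Fin N → ℝ) (n : ℕ) :
    ∑ ℓ : Fin n → Fin K, (∏ _k : Fin n, (1 / (K : ℝ))) * Gh r m ξ μ h (single K ∘ ℓ) =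
      ∑ v, bin (1 / N) n fun a _ => uSite r m ξ μ (h v) a := by
  have := H.pμ
  have e0 : ∑ ℓ : Fin n → Fin K, (∏ _k : Fin n, (1 / (K : ℝ))) * Gh r m ξ μ h (single K ∘ ℓ) =
      av fun ℓ : Fin n → Fin K => Gh r m ξ μ h (single K ∘ ℓ) := by
    simp [av, ← mul_sum, div_eq_inv_mul]
  rw [e0]
  let I : ∀ a : ℕ, ℝ → (Fin a → Fin K × (Fin K → Ω₀)) → ℝ := fun a x d =>
    ∫ w, site r m ξ x w d ∂Measure.pi (fun _ : Fin a => μ)
  have key : ∀ (ℓ : Fin n → Fin K) (ch : Fin n → Fin K → Fin N × Ω₀),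
      ∫ w, LZ r m ξ h w ch (single K ∘ ℓ) ∂Measure.pi (fun _ : Fin n => μ) =
        ∑ v, I _ (h v) ((fun k => (ℓ k, fun j => (ch k j).2)) ∘ fun i =>
          (((Fintype.equivFinOfCardEq (Fintype.card_subtype fun k => (ch k (ℓ k)).1 = v)).symm i).1
            : Fin n)) := by
    intro ℓ ch
    set ε := fun v => (Fintype.equivFinOfCardEq
      (Fintype.card_subtype fun k => (ch k (ℓ k)).1 = v)).symm
    have hι : ∀ v, Function.Injective fun i => ((ε v i).1 : Fin n) := fun v =>
      Subtype.val_injective.comp (ε v).injective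
    rw [integral_congr_ae (g := fun w => ∑ v, site r m ξ (h v) (w ∘ fun i => (ε v i).1)
      ((fun k => (ℓ k, fun j => (ch k j).2)) ∘ fun i => (ε v i).1)) ((H.valid_pi n).mono fun w hw => ?_)]
    · rw [integral_finsetSum _ fun v _ => integrable_inj (hι v)
        (F := fun w => site r m ξ (h v) w ((fun k => (ℓ k, fun j => (ch k j).2)) ∘ fun i => (ε v i).1))
        (integrable_site H E hξ (h v) _)]
      exact sum_congr rfl fun v _ => integral_comp_inj (hι v)
        ((measurable_site _).comp (measurable_const.prodMk measurable_id))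
    · simp only
      rw [LZ_single hξ h hw ch ℓ]
      exact sum_congr rfl fun v _ => site_congr (ε v) _ _ _
  simp only [Gh, fun ℓ : Fin n → Fin K =>
    (integral_av fun ch => integrable_LZ H E hξ h ch (single K ∘ ℓ)).2, key]
  rw [← av_prod (fun (ℓ : Fin n → Fin K) (ch : Fin n → Fin K → Fin N × Ω₀) => ∑ v, _), av_sum]
  refine sum_congr rfl fun v _ => ?_
  let G : (Fin n → Fin N × (Fin K × (Fin K → Ω₀))) → ℝ := fun q =>
    I _ (h v) ((fun k => (q k).2) ∘ fun i =>
      (((Fintype.equivFinOfCardEq (Fintype.card_subtype fun k => (q k).1 = v)).symm i).1 : Fin n))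
  have e1 := av_map (fun s : Fin K × (Fin K → Fin N × Ω₀) =>
    ((s.2 s.1).1, (s.1, fun j => (s.2 j).2))) av_slot (n := n) G
  have e2 := av_equiv (Equiv.arrowProdEquivProdArrow (Fin n) (fun _ => Fin K)
    (fun _ => Fin K → Fin N × Ω₀)).symm fun s => G ((fun s : Fin K × (Fin K → Fin N × Ω₀) =>
      ((s.2 s.1).1, (s.1, fun j => (s.2 j).2))) ∘ s)
  refine (e2.trans e1).trans ?_
  rw [← av_fibre v fun a _ => uSite r m ξ μ (h v) a,
    ← av_equiv (Equiv.arrowProdEquivProdArrow (Fin n) (fun _ => Fin N)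
      (fun _ => Fin K × (Fin K → Ω₀))).symm G,
    av_prod fun (pv : Fin n → Fin N) (d : Fin n → Fin K × (Fin K → Ω₀)) =>
      G ((Equiv.arrowProdEquivProdArrow (Fin n) (fun _ => Fin N)
        (fun _ => Fin K × (Fin K → Ω₀))).symm (pv, d))]
  refine congrArg av (funext fun pv => ?_)
  have hcard : (univ.filter fun k => pv k = v).card = cnt fun k => decide (pv k = v) := by
    simp [cnt]
  rw [← hcard, uSite, (integral_av fun d => integrable_site H E hξ (h v) d).2]
  exact av_comp_inj (Subtype.val_injective.comp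
    (Fintype.equivFinOfCardEq (Fintype.card_subtype fun k => pv k = v)).symm.injective) (I _ (h v))

end Vale.Agent.P168.MP.Upper
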