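import Vale.Agent.P168.MP.Upper.Clause

/-! The structure carrying a configuration and the messages of `n` clauses, and the hybrid from the
mixture of full and message-only clauses to clauses with one configuration slot. -/

namespace Vale.Agent.P168.MP.Upper

open Finset Real MeasureTheory

/-- marks: a configuration and the messages of `n` clauses -/
abbrev Mk (N K n : ℕ) (B : Type) : Type := (Fin N → Bool) × (Fin n → Fin K → B)

variable {N K n r : ℕ} {B Ω₀ : Type}

/-- the configuration of a path -/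
def spins (p : List (Mk N K n B)) : Fin N → Bool := (p.map Prod.fst).getLastD fun _ => false

/-- the weight of `n` clauses -/
noncomputable def Wn (ξ : Ω₀ → List B → ℝ) (h : Fin N → ℝ) (w : Fin n → Clause K)
    (ch : Fin n → Fin K → Fin N × Ω₀) (S : Fin n → Fin K → Bool) (p : List (Mk N K n B)) : ℝ :=
  exp (fieldSum h (spins p)) *
    ∏ k, Cs ξ (w k) (ch k) (S k) (spins p) fun j => p.map fun o => o.2 k j

variable [Fintype B] [Fintype Ω₀] {m : ℕ → ℝ} {ξ : Ω₀ → List B → ℝ}

/-- the nested log functional of `n` clauses -/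
noncomputable def LZ (r : ℕ) (m : ℕ → ℝ) (ξ : Ω₀ → List B → ℝ) (h : Fin N → ℝ)
    (w : Fin n → Clause K) (ch : Fin n → Fin K → Fin N × Ω₀) (S : Fin n → Fin K → Bool) : ℝ :=
  log (Z m (Wn ξ h w ch S) (r + 1) [])

/-- its average over the clauses and the choices, for a given field -/
noncomputable def Gh (r : ℕ) (m : ℕ → ℝ) (ξ : Ω₀ → List B → ℝ) (μ : Measure (Clause K))
    (h : Fin N → ℝ) (S : Fin n → Fin K → Bool) : ℝ :=
  ∫ w : Fin n → Clause K, (av fun ch => LZ r m ξ h w ch S) ∂Measure.pi (fun _ => μ)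

/-! ### averages over finite types -/

section av
variable {α β : Type} [Fintype α] [Fintype β]

lemma av_equiv (e : α ≃ β) (F : β → ℝ) : av (fun a => F (e a)) = av F := by
  rw [av, av, Fintype.card_congr e, e.sum_comp]

lemma av_prod (F : α → β → ℝ) : av (fun q : α × β => F q.1 q.2) = av fun a => av fun b => F a b := by
  simp only [av, Fintype.sum_prod_type, Fintype.card_prod, Nat.cast_mul, ← Finset.sum_div]
  rw [div_div, mul_comm]

lemma av_comm (F : α → β → ℝ) : (av fun a => av fun b => F a b) = av fun b => av fun a => F a b := by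
  simp only [av, ← Finset.sum_div]
  rw [sum_comm, div_div, div_div, mul_comm]

lemma av_insertNth {k : ℕ} (i : Fin (k + 1)) (F : (Fin (k + 1) → β) → ℝ) :
    av F = av fun r : Fin k → β => av fun b => F (i.insertNth b r) := by
  rw [av_comm, ← av_prod (fun b r => F (i.insertNth b r)),
    ← av_equiv (Fin.insertNthEquiv (fun _ => β) i) F]
  rfl

lemma integral_av {D : Type} [MeasurableSpace D] {μ : Measure D} {F : D → α → ℝ}
    (h : ∀ a, Integrable (fun d => F d a) μ) :
    Integrable (fun d => av (F d)) μ ∧ ∫ d, av (F d) ∂μ = av fun a => ∫ d, F d a ∂μ := by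
  simp only [av]
  refine ⟨(integrable_finsetSum _ fun a _ => h a).div_const _, ?_⟩
  rw [integral_div, integral_finsetSum _ fun a _ => h a]

end av

omit [Fintype Ω₀] [Fintype B] in
lemma Wn_pos (hξ : ∀ o l, |ξ o l| ≤ 1) (h : Fin N → ℝ) {w : Fin n → Clause K}
    (hw : ∀ k, P168.Valid (w k)) (ch : Fin n → Fin K → Fin N × Ω₀) (S : Fin n → Fin K → Bool)
    (p : List (Mk N K n B)) : 0 < Wn ξ h w ch S p :=
  mul_pos (exp_pos _) (prod_pos fun k _ => Cs_pos hξ (hw k) _ _ _ _)

omit [Fintype Ω₀] in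
lemma abs_fieldSum_le (h : Fin N → ℝ) (σ : Fin N → Bool) : |fieldSum h σ| ≤ ∑ v, |h v| := by
  refine (abs_sum_le_sum_abs _ _).trans (le_of_eq ?_)
  simp [abs_mul]

omit [Fintype Ω₀] in
lemma abs_LZ_le [Nonempty B] (E : Exps (r + 1) m) (hξ : ∀ o l, |ξ o l| ≤ 1) (h : Fin N → ℝ)
    {w : Fin n → Clause K} (hw : ∀ k, P168.Valid (w k)) (ch : Fin n → Fin K → Fin N × Ω₀)
    (S : Fin n → Fin K → Bool) : |LZ r m ξ h w ch S| ≤ ∑ v, |h v| + ∑ k, cb (w k) := by
  refine abs_log_Z_le E.pos (Wn_pos hξ h hw ch S) (fun p => ?_) _ _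
  rw [Wn, log_mul (exp_pos _).ne' (prod_pos fun k _ => Cs_pos hξ (hw k) _ _ _ _).ne', log_exp,
    log_prod fun k _ => (Cs_pos hξ (hw k) _ _ _ _).ne']
  exact (abs_add_le _ _).trans (add_le_add (abs_fieldSum_le h _)
    ((abs_sum_le_sum_abs _ _).trans (sum_le_sum fun k _ => abs_log_Cs_le hξ (hw k) _ _ _ _)))

omit [Fintype Ω₀] in
lemma measurable_LZ (ch : Fin n → Fin K → Fin N × Ω₀) (S : Fin n → Fin K → Bool) :
    Measurable fun q : (Fin N → ℝ) × (Fin n → Clause K) => LZ r m ξ q.1 q.2 ch S := by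
  refine Real.measurable_log.comp (measurable_Z (fun p => ?_) _ _)
  unfold Wn fieldSum
  exact (Real.measurable_exp.comp (Finset.measurable_sum _ fun v _ => by fun_prop)).mul
    (Finset.measurable_prod _ fun k _ => (measurable_Cs ξ _ _ _ _).comp
      ((measurable_pi_apply k).comp measurable_snd))

variable {μ : Measure (Clause K)} {β : Measure ℝ} {η : Measure (ℝ × ℝ)} {ρ : Measure ℝ}

omit [Fintype Ω₀] in
lemma Hyp.integral_sum_cb (H : Hyp μ β η ρ) (n : ℕ) :
    Integrable (fun w : Fin n → Clause K => ∑ k, cb (w k)) (Measure.pi fun _ => μ) ∧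
      ∫ w : Fin n → Clause K, ∑ k, cb (w k) ∂Measure.pi (fun _ => μ) =
        n * ∫ c, cb c ∂μ := by
  have := H.pμ; have := H.pβ; have := H.pη
  exact integral_sum_eval _ H.integrable_cb n

omit [Fintype Ω₀] in
lemma integrable_LZ [Nonempty B] (H : Hyp μ β η ρ) (E : Exps (r + 1) m)
    (hξ : ∀ o l, |ξ o l| ≤ 1) (h : Fin N → ℝ) (ch : Fin n → Fin K → Fin N × Ω₀)
    (S : Fin n → Fin K → Bool) :
    Integrable (fun w => LZ r m ξ h w ch S) (Measure.pi fun _ => μ) := by
  have := H.pμ; have := H.pβ; have := H.pη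
  refine Integrable.mono' ((integrable_const (∑ v, |h v|)).add (H.integral_sum_cb n).1)
    ((measurable_LZ ch S).comp (measurable_const.prodMk measurable_id)).aestronglyMeasurable ?_
  exact (H.valid_pi n).mono fun w hw => abs_LZ_le E hξ h hw ch S

lemma abs_Gh_le [NeZero N] [Nonempty Ω₀] [Nonempty B] (H : Hyp μ β η ρ) (E : Exps (r + 1) m)
    (hξ : ∀ o l, |ξ o l| ≤ 1) (h : Fin N → ℝ) (S : Fin n → Fin K → Bool) :
    |Gh r m ξ μ h S| ≤ ∑ v, |h v| + n * ∫ c, cb c ∂μ := by
  have := H.pμ; have := H.pβ; have := H.pη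
  rw [← Real.norm_eq_abs, Gh]
  refine (norm_integral_le_of_norm_le ((integrable_const (∑ v, |h v|)).add (H.integral_sum_cb n).1)
    ((H.valid_pi n).mono fun w hw => ?_)).trans (le_of_eq ?_)
  · exact abs_av_le fun ch => abs_LZ_le E hξ h hw ch S
  · simp only [Pi.add_apply]
    rw [integral_add (integrable_const _) (H.integral_sum_cb n).1, (H.integral_sum_cb n).2]
    simp

omit [Fintype Ω₀] in
lemma measurable_Gh [Fintype Ω₀] [IsProbabilityMeasure μ]
    (S : Fin n → Fin K → Bool) : Measurable fun h : Fin N → ℝ => Gh r m ξ μ h S := by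
  have : Measurable fun q : (Fin N → ℝ) × (Fin n → Clause K) =>
      av fun ch => LZ r m ξ q.1 q.2 ch S :=
    (Finset.measurable_sum _ fun ch _ => measurable_LZ ch S).div_const _
  exact this.stronglyMeasurable.integral_prod_right'.measurable

lemma integral_comb {D : Type} [MeasurableSpace D] {μ : Measure D}
    {F : (Fin K → Bool) → D → ℝ} (h : ∀ s, Integrable (F s) μ) :
    Integrable (fun d => comb fun s => F s d) μ ∧
      ∫ d, comb (fun s => F s d) ∂μ = comb fun s => ∫ d, F s d ∂μ := by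
  have i1 := ((h fun _ => true).const_mul (1 / (K : ℝ))).add
    ((h fun _ => false).const_mul (1 - 1 / (K : ℝ)))
  have i2 := (integrable_finsetSum univ fun (ℓ : Fin K) _ => h fun j => decide (j = ℓ)).const_mul
    (1 / (K : ℝ))
  refine ⟨i1.sub i2, ?_⟩
  simp only [comb]
  rw [integral_sub (f := fun d => 1 / (K : ℝ) * F (fun _ => true) d + (1 - 1 / (K : ℝ)) *
      F (fun _ => false) d) (g := fun d => 1 / (K : ℝ) * ∑ ℓ, F (fun j => decide (j = ℓ)) d) i1 i2,
    integral_add (f := fun d => 1 / (K : ℝ) * F (fun _ => true) d)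
      (g := fun d => (1 - 1 / (K : ℝ)) * F (fun _ => false) d)
      ((h _).const_mul _) ((h _).const_mul _),
    integral_const_mul, integral_const_mul, integral_const_mul,
    integral_finsetSum _ fun ℓ _ => h _]

lemma av_comb {α : Type} [Fintype α] (F : α → (Fin K → Bool) → ℝ) :
    (av fun a => comb (F a)) = comb fun s => av fun a => F a s := by
  simp only [av, comb, sum_add_distrib, sum_sub_distrib, ← mul_sum, ← Finset.sum_div]
  rw [sum_comm (s := (univ : Finset α))]
  ring

/-! ### swapping one clause -/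

/-- isolate the messages of clause `i` -/
def splitMk (i : Fin (n + 1)) : Mk N K (n + 1) B ≃ Ext (Mk N K n B) B K where
  toFun o := ((o.1, i.removeNth o.2), o.2 i)
  invFun q := (q.1.1, i.insertNth q.2 q.1.2)
  left_inv o := Prod.ext rfl (Fin.insertNth_self_removeNth i o.2)
  right_inv q := by simp

variable [Nonempty B]

omit [Fintype Ω₀] [Nonempty B] in
lemma LZ_update (i : Fin (n + 1)) (h : Fin N → ℝ) (c : Clause K) (w : Fin n → Clause K)
    (c₀ : Fin K → Fin N × Ω₀) (ch : Fin n → Fin K → Fin N × Ω₀) (S : Fin (n + 1) → Fin K → Bool)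
    (s : Fin K → Bool) :
    LZ r m ξ h (i.insertNth c w) (i.insertNth c₀ ch) (Function.update S i s) =
      withClause r m ξ (Wn ξ h w ch (i.removeNth S)) spins c c₀ s := by
  unfold LZ withClause
  have e : Wn ξ h (i.insertNth c w) (i.insertNth c₀ ch) (Function.update S i s) =
      fun p : List (Mk N K (n + 1) B) =>
        (fun q : List (Ext (Mk N K n B) B K) => baseW (Wn ξ h w ch (i.removeNth S)) q *
          Cs ξ c c₀ s (spins (q.map Prod.fst)) fun j => q.map fun o => o.2 j) (p.map (splitMk i)) := by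
    funext p
    have hs : spins ((p.map (splitMk i)).map Prod.fst) = spins p := by
      simp only [spins, List.map_map]; rfl
    simp only [baseW, Wn, hs]
    rw [Fin.prod_univ_succAbove _ i]
    simp only [Fin.insertNth_apply_same, Fin.insertNth_apply_succAbove, Function.update_self,
      ne_eq, Fin.succAbove_ne, not_false_eq_true, Function.update_of_ne, List.map_map,
      Function.comp_def, splitMk, Equiv.coe_fn_mk, Fin.removeNth]
    ring
  rw [e]
  exact congrArg log (Z_equiv (m := m) (splitMk i) (fun q : List (Ext (Mk N K n B) B K) =>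
    baseW (Wn ξ h w ch (i.removeNth S)) q *
      Cs ξ c c₀ s (spins (q.map Prod.fst)) fun j => q.map fun o => o.2 j) (r + 1) [])

lemma comb_Gh_nonpos [NeZero N] [NeZero K] [Nonempty Ω₀] (H : Hyp μ β η ρ) (hK : Even K)
    (hK2 : 2 ≤ K) (E : Exps (r + 1) m) (hξ : ∀ o l, |ξ o l| ≤ 1) (h : Fin N → ℝ)
    (i : Fin (n + 1)) (S : Fin (n + 1) → Fin K → Bool) :
    comb (fun s => Gh r m ξ μ h (Function.update S i s)) ≤ 0 := by
  have := H.pμ; have := H.pβ; have := H.pη
  set Λ := μ
  set F := fun w : Fin (n + 1) → Clause K =>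
    av fun ch => comb fun s => LZ r m ξ h w ch (Function.update S i s)
  have hi : ∀ s, Integrable (fun w : Fin (n + 1) → Clause K =>
      av fun ch => LZ r m ξ h w ch (Function.update S i s)) (Measure.pi fun _ => Λ) := fun s =>
    (integral_av fun ch => integrable_LZ H E hξ h ch _).1
  have hc : ∀ ch : Fin (n + 1) → Fin K → Fin N × Ω₀,
      Integrable (fun w => comb fun s => LZ r m ξ h w ch (Function.update S i s))
        (Measure.pi fun _ => Λ) := fun ch =>
    (((integrable_LZ H E hξ h ch _).const_mul _).add ((integrable_LZ H E hξ h ch _).const_mul _)).sub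
      ((integrable_finsetSum _ fun ℓ _ => integrable_LZ H E hξ h ch _).const_mul _)
  have hF : Integrable F (Measure.pi fun _ => Λ) := (integral_av hc).1
  have e1 : comb (fun s => Gh r m ξ μ h (Function.update S i s)) =
      ∫ w, F w ∂Measure.pi fun _ => Λ := by
    simp only [Gh]
    rw [← (integral_comb hi).2]
    simp only [F, av_comb]
  rw [e1]
  have mp := (measurePreserving_piFinSuccAbove (fun _ : Fin (n + 1) => Λ) i).symm
  rw [← mp.integral_comp', integral_prod_symm (fun x =>
    F ((MeasurableEquiv.piFinSuccAbove (fun _ => Clause K) i).symm x)) ((mp.integrable_comp_emb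
    (MeasurableEquiv.measurableEmbedding _)).2 hF)]
  refine integral_nonpos_of_ae ?_
  filter_upwards [H.valid_pi n] with w hw
  have h2 : ∀ c, F (i.insertNth c w) = av fun ch : Fin n → Fin K → Fin N × Ω₀ => av fun c₀ =>
      comb (withClause r m ξ (Wn ξ h w ch (i.removeNth S)) spins c c₀) := fun c => by
    simp only [F]
    rw [av_insertNth i]
    simp only [LZ_update]
  have h3 := fun ch : Fin n → Fin K → Fin N × Ω₀ =>
    clause_step (sA := spins) H hK hK2 E hξ (Wn_pos hξ h hw ch (i.removeNth S))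
  refine le_of_eq_of_le (?_ : _ = ∫ c, (av fun ch : Fin n → Fin K → Fin N × Ω₀ => av fun c₀ =>
      comb (withClause r m ξ (Wn ξ h w ch (i.removeNth S)) spins c c₀)) ∂Λ) ?_
  · exact integral_congr_ae (Filter.Eventually.of_forall fun c => h2 c)
  · rw [(integral_av fun ch => (h3 ch).1).2]
    exact (av_mono fun ch => (h3 ch).2).trans_eq (av_const 0)

/-! ### all clauses -/

omit [Fintype B] [Fintype Ω₀] [Nonempty B] in
/-- changing the law of the independent coordinates one at a time -/
lemma hybrid_prod {α β T : Type} [Fintype α] [Fintype β] (u : α → ℝ) (v : β → ℝ)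
    (hu : ∀ a, 0 ≤ u a) (hv : ∀ b, 0 ≤ v b) (φ : α → T) (ψ : β → T) :
    ∀ (n : ℕ) (G : (Fin n → T) → ℝ),
      (∀ i S, ∑ a, u a * G (Function.update S i (φ a)) ≤
        ∑ b, v b * G (Function.update S i (ψ b))) →
      ∑ e : Fin n → α, (∏ k, u (e k)) * G (φ ∘ e) ≤ ∑ e : Fin n → β, (∏ k, v (e k)) * G (ψ ∘ e)
  | 0, G, _ => by
    simp only [Fintype.sum_unique, Fin.prod_univ_zero, one_mul]
    exact le_of_eq (congrArg G (Subsingleton.elim _ _))
  | n + 1, G, hG => by
    have eα : ∑ e : Fin (n + 1) → α, (∏ k, u (e k)) * G (φ ∘ e) =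
        ∑ a, u a * ∑ e : Fin n → α, (∏ k, u (e k)) * G (Fin.cons (φ a) (φ ∘ e)) := by
      rw [← (Fin.consEquiv fun _ => α).sum_comp, Fintype.sum_prod_type]
      simp [Fin.consEquiv, Fin.prod_univ_succ, Fin.comp_cons, mul_sum, mul_assoc]
    have eβ : ∑ e : Fin (n + 1) → β, (∏ k, v (e k)) * G (ψ ∘ e) =
        ∑ e : Fin n → β, (∏ k, v (e k)) * ∑ b, v b * G (Fin.cons (ψ b) (ψ ∘ e)) := by
      rw [← (Fin.consEquiv fun _ => β).sum_comp, Fintype.sum_prod_type, sum_comm]
      simp only [mul_sum, Fin.consEquiv, Equiv.coe_fn_mk, Fin.prod_univ_succ, Fin.cons_zero, Fin.cons_succ,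
        Fin.comp_cons]
      exact sum_congr rfl fun e _ => sum_congr rfl fun b _ => by ring
    rw [eα, eβ]
    refine (sum_le_sum fun a _ => mul_le_mul_of_nonneg_left
      (hybrid_prod u v hu hv φ ψ n (fun S => G (Fin.cons (φ a) S)) fun i S => ?_) (hu a)).trans ?_
    · simpa only [Fin.cons_update] using hG i.succ (Fin.cons (φ a) S)
    · simp only [mul_sum]
      rw [sum_comm]
      refine sum_le_sum fun e _ => ?_
      simp only [mul_left_comm (u _), ← mul_sum]
      refine mul_le_mul_of_nonneg_left ?_ (prod_nonneg fun k _ => hv _)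
      rcases isEmpty_or_nonempty α with hα | ⟨⟨a₀⟩⟩
      · rcases isEmpty_or_nonempty β with hβ | ⟨⟨b₀⟩⟩
        · simp
        · simpa only [Fin.update_cons_zero] using hG 0 (Fin.cons (ψ b₀) (ψ ∘ e))
      · simpa only [Fin.update_cons_zero] using hG 0 (Fin.cons (φ a₀) (ψ ∘ e))

/-- slot sets of a full and of a message-only clause -/
def fullNone (K : ℕ) (b : Bool) : Fin K → Bool := fun _ => b

/-- slot set of a clause with one configuration slot -/
def single (K : ℕ) (ℓ : Fin K) : Fin K → Bool := fun j => decide (j = ℓ)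

/-- probability of a full clause -/
noncomputable def pFull (K : ℕ) (b : Bool) : ℝ := if b then 1 / K else 1 - 1 / K

/-- **the hybrid** -/
theorem hybrid [NeZero N] [NeZero K] [Nonempty Ω₀] (H : Hyp μ β η ρ) (hK : Even K) (hK2 : 2 ≤ K)
    (E : Exps (r + 1) m) (hξ : ∀ o l, |ξ o l| ≤ 1) (h : Fin N → ℝ) (n : ℕ) :
    ∑ e : Fin n → Bool, (∏ k, pFull K (e k)) * Gh r m ξ μ h (fullNone K ∘ e) ≤
      ∑ ℓ : Fin n → Fin K, (∏ _k : Fin n, (1 / (K : ℝ))) * Gh r m ξ μ h (single K ∘ ℓ) := by
  refine hybrid_prod (pFull K) (fun _ => 1 / (K : ℝ)) (fun b => ?_) (fun _ => by positivity)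
    (fullNone K) (single K) n _ fun i S => ?_
  · have : 1 / (K : ℝ) ≤ 1 := by
      rw [div_le_one (by exact_mod_cast NeZero.pos K)]; exact_mod_cast NeZero.pos K
    cases b <;> simp only [pFull, Bool.false_eq_true, if_false, if_true]
    · linarith
    · positivity
  · rcases n with _ | n
    · exact i.elim0
    have := comb_Gh_nonpos H hK hK2 E hξ h i S
    simp only [comb] at this
    simp only [Fintype.sum_bool, pFull, if_true, Bool.false_eq_true, if_false, ← mul_sum]
    unfold single fullNone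
    linarith

end Vale.Agent.P168.MP.Upper
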