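import Vale.Agent.P168.MP.Upper.StepTrial

/-! Trial values are continuous under almost everywhere convergence of trial functions, and every
trial function is such a limit of step trial functions on grids. -/

namespace Vale.Agent.P168.MP.Upper

open Finset Real MeasureTheory Filter Topology

/-- uniform law on a cube -/
noncomputable def cube (r : ℕ) : Measure (Fin r → ℝ) := Measure.pi fun _ => unif01

instance (r : ℕ) : IsProbabilityMeasure (cube r) := by unfold cube; infer_instance

lemma ae_cons {r : ℕ} {P : (Fin (r + 1) → ℝ) → Prop} (h : ∀ᵐ v ∂cube (r + 1), P v) :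
    ∀ᵐ t ∂unif01, ∀ᵐ v ∂cube r, P (Fin.cons t v) := by
  have mp := (measurePreserving_piFinSuccAbove (fun _ : Fin (r + 1) => unif01) 0).symm
  have := Measure.ae_ae_of_ae_prod (mp.quasiMeasurePreserving.ae h)
  simpa [MeasurableEquiv.piFinSuccAbove, cube, Fin.zero_succAbove, Fin.insertNth_zero', Fin.consEquiv] using this

variable {ι : Type} [Fintype ι]

lemma inner_tendsto {Y : (ι → ℝ) → ℝ} (hY : Continuous Y) {C : ℝ}
    (hb : ∀ xs, (∀ i, |xs i| ≤ 1) → exp (-C) ≤ Y xs ∧ Y xs ≤ exp C) :
    ∀ (r : ℕ) (m : Fin r → ℝ), (∀ l, 0 < m l) →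
      ∀ (Xn : ℕ → ι → (Fin r → ℝ) → ℝ) (X : ι → (Fin r → ℝ) → ℝ),
        (∀ k i, Measurable (Xn k i)) → (∀ i, Measurable (X i)) → (∀ k i v, |Xn k i v| ≤ 1) →
        (∀ i v, |X i v| ≤ 1) → (∀ i, ∀ᵐ v ∂cube r, Tendsto (fun k => Xn k i v) atTop (𝓝 (X i v))) →
        Tendsto (fun k => inner r m (Xn k) Y) atTop (𝓝 (inner r m X Y))
  | 0, m, _, Xn, X, _, _, _, _, hconv => by
    simp only [inner]
    refine (hY.tendsto _).comp (tendsto_pi_nhds.2 fun i => ?_)
    obtain ⟨v, hv⟩ := (hconv i).exists
    rwa [Subsingleton.elim v Fin.elim0] at hv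
  | r + 1, m, hm, Xn, X, hXn, hX, hn1, hx1, hconv => by
    simp only [inner]
    refine Tendsto.rpow_const ?_ (Or.inr (one_div_pos.2 (hm 0)).le)
    have hmem : ∀ (Z : ι → (Fin (r + 1) → ℝ) → ℝ), (∀ i, Measurable (Z i)) → (∀ i v, |Z i v| ≤ 1) →
        ∀ ω : ι → ℝ, exp (-C) ≤ inner r (Fin.tail m) (fun i v => Z i (Fin.cons (ω i) v)) Y ∧
          inner r (Fin.tail m) (fun i v => Z i (Fin.cons (ω i) v)) Y ≤ exp C := fun Z hZ hZ1 ω =>
      inner_mem hY.measurable hb r (Fin.tail m) (fun l => hm _) _
        (fun i => (hZ i).comp (measurable_cons measurable_const measurable_id)) fun i v => hZ1 i _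
    refine tendsto_integral_of_dominated_convergence (fun _ => exp C ^ m 0)
      (fun k => ((measurable_inner_step m (hXn k) hY.measurable).pow_const _).aestronglyMeasurable)
      (integrable_const _) (fun k => Eventually.of_forall fun ω => ?_) ?_
    · obtain ⟨a, b⟩ := hmem (Xn k) (hXn k) (hn1 k) ω
      rw [Real.norm_eq_abs, abs_of_nonneg (rpow_nonneg ((exp_pos _).le.trans a) _)]
      exact rpow_le_rpow ((exp_pos _).le.trans a) b (hm 0).le
    · have h : ∀ᵐ ω ∂Measure.pi (fun _ : ι => unif01), ∀ i, ∀ᵐ v ∂cube r,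
          Tendsto (fun k => Xn k i (Fin.cons (ω i) v)) atTop (𝓝 (X i (Fin.cons (ω i) v))) :=
        ae_all_iff.2 fun i => (Measure.tendsto_eval_ae_ae (μ := fun _ : ι => unif01) (i := i)).eventually
          (ae_cons (hconv i))
      filter_upwards [h] with ω hω
      refine Tendsto.rpow_const ?_ (Or.inr (hm 0).le)
      exact inner_tendsto hY hb r (Fin.tail m) (fun l => hm _) _ _
        (fun k i => (hXn k i).comp (measurable_cons measurable_const measurable_id))
        (fun i => (hX i).comp (measurable_cons measurable_const measurable_id))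
        (fun k i v => hn1 k i _) (fun i v => hx1 i _) hω

variable {n K r : ℕ} {m : Fin r → ℝ} {xn : ℕ → (Fin (r + 1) → ℝ) → ℝ} {x : (Fin (r + 1) → ℝ) → ℝ}

lemma levels_tendsto (hm : ∀ l, 0 < m l) (hxn : ∀ k, Measurable (xn k)) (hx : Measurable x)
    (hn1 : ∀ k v, |xn k v| ≤ 1) (hx1 : ∀ v, |x v| ≤ 1)
    (hconv : ∀ᵐ v ∂cube (r + 1), Tendsto (fun k => xn k v) atTop (𝓝 (x v)))
    {Y : (Fin n → Fin K → ℝ) → ℝ} (hY : Continuous Y) {C : ℝ}
    (hb : ∀ xs, (∀ k j, |xs k j| ≤ 1) → exp (-C) ≤ Y xs ∧ Y xs ≤ exp C) :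
    Tendsto (fun k => levels r m (xn k) Y) atTop (𝓝 (levels r m x Y)) := by
  have hY' : Continuous fun xs : Fin n × Fin K → ℝ => Y fun k j => xs (k, j) := by fun_prop
  have hb' : ∀ xs : Fin n × Fin K → ℝ, (∀ i, |xs i| ≤ 1) →
      exp (-C) ≤ Y (fun k j => xs (k, j)) ∧ Y (fun k j => xs (k, j)) ≤ exp C := fun xs h =>
    hb _ fun k j => h (k, j)
  refine tendsto_integral_of_dominated_convergence (fun _ => C)
    (fun k => (integrable_log_inner hm (hxn k) (hn1 k) hY.measurable hb).1) (integrable_const _)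
    (fun k => Eventually.of_forall fun ω => by
      simpa [Real.norm_eq_abs] using abs_log_inner_le hm (hxn k) (hn1 k) hY.measurable hb ω) ?_
  have h : ∀ᵐ ω ∂Measure.pi (fun _ : Fin n × Fin K => unif01), ∀ i, ∀ᵐ v ∂cube r,
      Tendsto (fun k => xn k (Fin.cons (ω i) v)) atTop (𝓝 (x (Fin.cons (ω i) v))) :=
    ae_all_iff.2 fun i => (Measure.tendsto_eval_ae_ae (μ := fun _ : Fin n × Fin K => unif01)
      (i := i)).eventually (ae_cons hconv)
  filter_upwards [h] with ω hω
  have hpos := (inner_mem hY'.measurable hb' r m hm (fun i v => x (Fin.cons (ω i) v))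
    (fun i => hx.comp (measurable_cons measurable_const measurable_id)) fun i v => hx1 _).1
  refine Tendsto.log ?_ ((exp_pos _).trans_le hpos).ne'
  exact inner_tendsto hY' hb' r m hm _ _
    (fun k i => (hxn k).comp (measurable_cons measurable_const measurable_id))
    (fun i => hx.comp (measurable_cons measurable_const measurable_id))
    (fun k i v => hn1 k _) (fun i v => hx1 _) hω

variable {μ : Measure (Clause K)} {ρ : Measure ℝ} {lam : ℝ}

lemma TU_tendsto [IsProbabilityMeasure μ] [IsProbabilityMeasure ρ] [NeZero K]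
    (hθ : ∀ σ : Fin K → Bool, Integrable (fun c : Clause K => theta c σ) μ)
    (hh : Integrable (fun y : ℝ => y) ρ) (hlam : 0 ≤ lam) (hm : ∀ l, 0 < m l)
    (hxn : ∀ k, Measurable (xn k)) (hx : Measurable x)
    (hn1 : ∀ k v, |xn k v| ≤ 1) (hx1 : ∀ v, |x v| ≤ 1)
    (hconv : ∀ᵐ v ∂cube (r + 1), Tendsto (fun k => xn k v) atTop (𝓝 (x v))) :
    Tendsto (fun k => TU μ ρ lam r m (xn k)) atTop (𝓝 (TU μ ρ lam r m x)) := by
  have hr : 0 ≤ (K : ℝ) * lam := by positivity
  set A := ∫ c, tsumAbs c ∂μ
  refine tendsto_tsum_of_dominated_convergence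
    (bound := fun n : ℕ => pois (K * lam) n * (A * n + (∫ y, |y| ∂ρ + log 2)))
    (hasSum_pois_affine _ _ _).summable (fun n => ?_) (Eventually.of_forall fun k n => ?_)
  · refine Tendsto.const_mul _ ?_
    simp only [← integral_prod _ (integrable_avU (n := n) hθ hh hm (hxn _) (hn1 _)),
      ← integral_prod _ (integrable_avU (n := n) hθ hh hm hx hx1)]
    have hs := integral_sum_eval μ (integrable_tsumAbs hθ) n
    refine tendsto_integral_of_dominated_convergence
      (fun q : ℝ × (Fin n → Clause K) => |q.1| + log 2 + ∑ k, tsumAbs (q.2 k))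
      (fun k => (integrable_avU hθ hh hm (hxn k) (hn1 k)).1)
      (((hh.abs.comp_fst _).add (integrable_const _)).add (hs.1.comp_snd ρ))
      (fun k => Eventually.of_forall fun q => by
        rw [Real.norm_eq_abs]
        exact abs_av_le fun ℓ => abs_levels_cavU_le hm (hxn k) (hn1 k) q.1 q.2 ℓ) ?_
    refine Eventually.of_forall fun q => ?_
    unfold av
    refine (tendsto_finsetSum _ fun ℓ _ => ?_).div_const _
    refine levels_tendsto hm hxn hx hn1 hx1 hconv ?_ fun xs hxs => cavU_mem_abs q.1 q.2 ℓ hxs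
    unfold cavU msgWeight
    refine continuous_finsetSum _ fun s _ => continuous_const.mul (continuous_finsetProd _ fun a _ =>
      continuous_finsetSum _ fun σ _ => ?_)
    split_ifs <;> fun_prop
  · rw [Real.norm_eq_abs, abs_mul, abs_of_nonneg (pois_nonneg hr n)]
    refine mul_le_mul_of_nonneg_left ?_ (pois_nonneg hr n)
    have hs := integral_sum_eval μ (integrable_tsumAbs hθ) n
    rw [← integral_prod _ (integrable_avU (n := n) hθ hh hm (hxn k) (hn1 k)), ← Real.norm_eq_abs]
    refine (norm_integral_le_of_norm_le (g := fun q : ℝ × (Fin n → Clause K) =>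
        |q.1| + log 2 + ∑ k, tsumAbs (q.2 k))
      (((hh.abs.comp_fst _).add (integrable_const _)).add (hs.1.comp_snd ρ))
      (Eventually.of_forall fun q => by
        rw [Real.norm_eq_abs]
        exact abs_av_le fun ℓ => abs_levels_cavU_le hm (hxn k) (hn1 k) q.1 q.2 ℓ)).trans (le_of_eq ?_)
    rw [integral_add (f := fun q : ℝ × (Fin n → Clause K) => |q.1| + log 2)
        (g := fun q : ℝ × (Fin n → Clause K) => ∑ k, tsumAbs (q.2 k))
        ((hh.abs.comp_fst _).add (integrable_const _)) (hs.1.comp_snd ρ),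
      integral_add (hh.abs.comp_fst _) (integrable_const _),
      integral_fun_fst (fun y : ℝ => |y|), integral_fun_snd (fun w : Fin n → Clause K => ∑ k, tsumAbs (w k)),
      hs.2]
    simp [A]; ring

lemma TV_tendsto [IsProbabilityMeasure μ] [NeZero K]
    (hθ : ∀ σ : Fin K → Bool, Integrable (fun c : Clause K => theta c σ) μ) (hlam : 0 ≤ lam)
    (hm : ∀ l, 0 < m l) (hxn : ∀ k, Measurable (xn k)) (hx : Measurable x)
    (hn1 : ∀ k v, |xn k v| ≤ 1) (hx1 : ∀ v, |x v| ≤ 1)
    (hconv : ∀ᵐ v ∂cube (r + 1), Tendsto (fun k => xn k v) atTop (𝓝 (x v))) :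
    Tendsto (fun k => TV μ lam r m (xn k)) atTop (𝓝 (TV μ lam r m x)) := by
  have hK : (1 : ℝ) ≤ K := by exact_mod_cast NeZero.one_le (n := K)
  have hr : 0 ≤ ((K : ℝ) - 1) * lam := mul_nonneg (by linarith) hlam
  set A := ∫ c, tsumAbs c ∂μ
  refine tendsto_tsum_of_dominated_convergence
    (bound := fun n : ℕ => pois (((K : ℝ) - 1) * lam) n * (A * n + 0))
    (hasSum_pois_affine _ _ _).summable (fun n => ?_) (Eventually.of_forall fun k n => ?_)
  · refine Tendsto.const_mul _ (tendsto_integral_of_dominated_convergence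
      (fun w : Fin n → Clause K => ∑ k, tsumAbs (w k))
      (fun k => (integrable_levelsV hθ hm (hxn k) (hn1 k)).1)
      (integral_sum_eval μ (integrable_tsumAbs hθ) n).1
      (fun k => Eventually.of_forall fun w => by
        rw [Real.norm_eq_abs]; exact abs_levels_cavV_le hm (hxn k) (hn1 k) w)
      (Eventually.of_forall fun w => ?_))
    refine levels_tendsto hm hxn hx hn1 hx1 hconv ?_ fun xs hxs => cavV_mem_abs w hxs
    unfold cavV msgWeight
    fun_prop
  · rw [Real.norm_eq_abs, abs_mul, abs_of_nonneg (pois_nonneg hr n)]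
    refine mul_le_mul_of_nonneg_left ?_ (pois_nonneg hr n)
    have hs := integral_sum_eval μ (integrable_tsumAbs hθ) n
    rw [← Real.norm_eq_abs]
    refine (norm_integral_le_of_norm_le hs.1 (Eventually.of_forall fun w => by
      rw [Real.norm_eq_abs]; exact abs_levels_cavV_le hm (hxn k) (hn1 k) w)).trans (le_of_eq ?_)
    rw [hs.2]; ring

/-! ### step approximation -/

/-- grid digit -/
noncomputable def dig (M : ℕ) (t : ℝ) : Fin (M + 1) :=
  ⟨min ⌊((M : ℝ) + 1) * t⌋₊ M, Nat.lt_succ_of_le (min_le_right _ _)⟩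

lemma measurable_dig (M : ℕ) : Measurable (dig M) := by
  have h : Measurable fun t : ℝ => ⌊((M : ℝ) + 1) * t⌋₊ :=
    Nat.measurable_floor.comp (measurable_id.const_mul _)
  exact (Measurable.of_discrete
    (f := fun k : ℕ => (⟨min k M, Nat.lt_succ_of_le (min_le_right _ _)⟩ : Fin (M + 1)))).comp h

lemma integral_dig (M : ℕ) (g : Fin (M + 1) → ℝ) : ∫ t, g (dig M t) ∂unif01 = avg g := by
  set a : ℕ → ℝ := fun k => (k : ℝ) / ((M : ℝ) + 1)
  have hM : (0 : ℝ) < (M : ℝ) + 1 := by positivity
  have hbd : ∀ x y : ℝ, IntervalIntegrable (fun t => g (dig M t)) volume x y := fun x y =>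
    (intervalIntegrable_const (c := ∑ k, |g k|)).mono_fun'
      ((Measurable.of_discrete (f := g)).comp (measurable_dig M)).aestronglyMeasurable
      (Eventually.of_forall fun t => by
        simpa [Real.norm_eq_abs] using
          single_le_sum (f := fun k => |g k|) (fun _ _ => abs_nonneg _) (mem_univ (dig M t)))
  have hk : ∀ k : Fin (M + 1),
      ∫ t in a k..a (k + 1 : ℕ), g (dig M t) = g k / ((M : ℝ) + 1) := by
    intro k
    rw [intervalIntegral.integral_congr_ae (g := fun _ => g k)]
    · simp only [intervalIntegral.integral_const, smul_eq_mul, a]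
      push_cast; field_simp; ring
    · filter_upwards [Measure.ae_ne volume (a (k + 1 : ℕ))] with t hne ht
      rw [Set.uIoc_of_le (div_le_div_of_nonneg_right (by push_cast; linarith) hM.le)] at ht
      congr 1
      ext
      have h1 : (k : ℝ) < ((M : ℝ) + 1) * t := by
        have := (div_lt_iff₀ hM).1 ht.1; linarith
      have h2 : ((M : ℝ) + 1) * t < (k : ℝ) + 1 := by
        have := (lt_div_iff₀ hM).1 (lt_of_le_of_ne ht.2 hne)
        push_cast at this; linarith
      have hfl : ⌊((M : ℝ) + 1) * t⌋₊ = k.1 :=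
        (Nat.floor_eq_iff (by linarith [Nat.cast_nonneg (α := ℝ) k.1])).2 ⟨h1.le, h2⟩
      simp only [dig, hfl, min_eq_left (Nat.lt_succ_iff.1 k.2)]
  have hs := intervalIntegral.sum_integral_adjacent_intervals
    (a := a) (n := M + 1) (f := fun t => g (dig M t)) (μ := volume) fun k _ => hbd _ _
  rw [← Fin.sum_univ_eq_sum_range (fun k => ∫ t in a k..a (k + 1), g (dig M t)) (M + 1),
    sum_congr rfl fun k _ => hk k] at hs
  rw [unif01, integral_Icc_eq_integral_Ioc, ← intervalIntegral.integral_of_le zero_le_one,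
    show (0 : ℝ) = a 0 by simp [a], show (1 : ℝ) = a (M + 1) by simp [a, div_self hM.ne'], ← hs,
    avg, ← Finset.sum_div, Fintype.card_fin]
  push_cast; rfl

lemma abs_clip_sub_le {y z : ℝ} (hz : |z| ≤ 1) : |clip 1 y - z| ≤ |y - z| := by
  obtain ⟨h1, h2⟩ := abs_le.1 hz
  unfold clip
  rcases le_total y 1 with h | h
  · rw [min_eq_left h]
    rcases le_total (-1) y with h' | h'
    · rw [max_eq_right h']
    · rw [max_eq_left h', abs_of_nonpos (by linarith), abs_of_nonpos (by linarith)]; linarith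
  · rw [min_eq_right h, max_eq_right (by norm_num), abs_of_nonneg (by linarith),
      abs_of_nonneg (by linarith)]
    linarith

/-- every trial function is an almost everywhere limit of step trial functions -/
theorem exists_steps (hx : Measurable x) (hx1 : ∀ v, |x v| ≤ 1) :
    ∃ (M : ℕ → ℕ) (g : ∀ k, (Fin (r + 1) → Fin (M k + 1)) → ℝ), (∀ k u, |g k u| ≤ 1) ∧
      ∀ᵐ v ∂cube (r + 1), Tendsto (fun k => stepX (dig (M k)) (g k) v) atTop (𝓝 (x v)) := by
  have hxi : Integrable x (cube (r + 1)) :=
    Integrable.of_bound hx.aestronglyMeasurable 1 (Eventually.of_forall hx1)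
  have hmeas : ∀ (M : ℕ) (g : (Fin (r + 1) → Fin (M + 1)) → ℝ), Measurable (stepX (dig M) g) :=
    fun M g => (Measurable.of_discrete (f := g)).comp
      (measurable_pi_lambda _ fun i => (measurable_dig M).comp (measurable_pi_apply i))
  have key : ∀ ε : ℝ, 0 < ε → ∃ (M : ℕ) (g : (Fin (r + 1) → Fin (M + 1)) → ℝ),
      (∀ u, |g u| ≤ 1) ∧ ∫ v, |stepX (dig M) g v - x v| ∂cube (r + 1) ≤ ε := by
    intro ε hε
    have : IsFiniteMeasure (cube (r + 1)) := inferInstance
    obtain ⟨c, -, hc, hcc, hci⟩ :=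
      hxi.exists_hasCompactSupport_integral_sub_le (half_pos hε)
    let G : ∀ M : ℕ, (Fin (r + 1) → Fin (M + 1)) → ℝ := fun M u =>
      clip 1 (c fun i => ((u i : ℕ) : ℝ) / ((M : ℝ) + 1))
    have hG : ∀ M u, |G M u| ≤ 1 := fun M u => abs_clip_le zero_le_one _
    have hcube : ∀ᵐ v ∂cube (r + 1), ∀ i, v i ∈ Set.Icc (0 : ℝ) 1 :=
      ae_all_iff.2 fun i => (Measure.tendsto_eval_ae_ae (μ := fun _ : Fin (r + 1) => unif01)
        (i := i)).eventually (ae_restrict_mem measurableSet_Icc)
    have hlim : ∀ᵐ v ∂cube (r + 1),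
        Tendsto (fun M : ℕ => |stepX (dig M) (G M) v - clip 1 (c v)|) atTop (𝓝 0) := by
      filter_upwards [hcube] with v hv
      have hp : Tendsto (fun M : ℕ => fun i => ((dig M (v i) : ℕ) : ℝ) / ((M : ℝ) + 1)) atTop (𝓝 v) := by
        refine tendsto_pi_nhds.2 fun i => ?_
        rw [tendsto_iff_norm_sub_tendsto_zero]
        refine squeeze_zero (fun M => norm_nonneg _) (fun M => ?_)
          (tendsto_one_div_add_atTop_nhds_zero_nat (𝕜 := ℝ))
        have hM : (0 : ℝ) < (M : ℝ) + 1 := by positivity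
        obtain ⟨h0, h1⟩ := hv i
        have f1 := Nat.floor_le (mul_nonneg hM.le h0)
        have f2 := Nat.lt_floor_add_one (((M : ℝ) + 1) * v i)
        have d1 : ((dig M (v i) : ℕ) : ℝ) ≤ ((M : ℝ) + 1) * v i := by
          refine le_trans ?_ f1
          simp only [dig]
          exact_mod_cast min_le_left _ _
        have d2 : ((M : ℝ) + 1) * v i - 1 ≤ ((dig M (v i) : ℕ) : ℝ) := by
          simp only [dig]
          rcases le_total ⌊((M : ℝ) + 1) * v i⌋₊ M with h | h
          · rw [min_eq_left h]; linarith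
          · rw [min_eq_right h]; linarith [mul_le_of_le_one_right hM.le h1]
        rw [Real.norm_eq_abs, abs_le]
        constructor
        · rw [le_sub_iff_add_le, le_div_iff₀ hM]; field_simp; linarith
        · rw [sub_le_iff_le_add, div_le_iff₀ hM]; field_simp; linarith
      have h := (((continuous_clip 1).comp hcc).tendsto v).comp hp
      simpa [stepX, G, Function.comp_def] using (h.sub_const (clip 1 (c v))).abs
    have hI : Tendsto (fun M : ℕ => ∫ v, |stepX (dig M) (G M) v - clip 1 (c v)| ∂cube (r + 1))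
        atTop (𝓝 0) := by
      simpa using tendsto_integral_of_dominated_convergence (fun _ => (2 : ℝ))
        (fun M => ((hmeas M (G M)).sub ((continuous_clip 1).comp hcc).measurable).abs.aestronglyMeasurable)
        (integrable_const _) (fun M => Eventually.of_forall fun v => by
          rw [Real.norm_eq_abs, abs_abs]
          exact (abs_sub _ _).trans (by
            simp only [Function.comp_apply]
            linarith [hG M fun i => dig M (v i), abs_clip_le zero_le_one (c v),
              show |stepX (dig M) (G M) v| = |G M fun i => dig M (v i)| from rfl]))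
        hlim
    obtain ⟨M, hM⟩ := (hI.eventually_lt_const (half_pos hε)).exists
    refine ⟨M, G M, hG M, ?_⟩
    have i1 : Integrable (fun v => |stepX (dig M) (G M) v - clip 1 (c v)|) (cube (r + 1)) :=
      ((Integrable.of_bound (hmeas M (G M)).aestronglyMeasurable 1
        (Eventually.of_forall fun v => hG M _)).sub (Integrable.of_bound
          ((continuous_clip 1).comp hcc).aestronglyMeasurable 1
          (Eventually.of_forall fun v => abs_clip_le zero_le_one _))).abs
    have i2 : Integrable (fun v => |c v - x v|) (cube (r + 1)) := (hci.sub hxi).abs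
    refine (integral_mono_of_nonneg (Eventually.of_forall fun v => abs_nonneg _) (i1.add i2)
      (Eventually.of_forall fun v => ?_)).trans ?_
    · simp only [Pi.add_apply]
      exact (abs_sub_le _ (clip 1 (c v)) _).trans (add_le_add le_rfl (abs_clip_sub_le (hx1 v)))
    · simp only [Pi.add_apply]
      rw [integral_add i1 i2]
      have e : ∫ v, |c v - x v| ∂cube (r + 1) = ∫ v, ‖x v - c v‖ ∂cube (r + 1) :=
        integral_congr_ae (Eventually.of_forall fun v => by
          simp [Real.norm_eq_abs, abs_sub_comm])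
      linarith
  choose M g hg1 hg using fun k : ℕ => key (1 / ((k : ℝ) + 1)) (by positivity)
  have hm : TendstoInMeasure (cube (r + 1)) (fun k => stepX (dig (M k)) (g k)) atTop x := by
    refine tendstoInMeasure_of_tendsto_eLpNorm one_ne_zero
      (fun k => (hmeas _ _).aestronglyMeasurable) hx.aestronglyMeasurable ?_
    have e : ∀ k, eLpNorm (stepX (dig (M k)) (g k) - x) 1 (cube (r + 1)) ≤
        ENNReal.ofReal (1 / ((k : ℝ) + 1)) := fun k => by
      rw [eLpNorm_one_eq_lintegral_enorm, ← ofReal_integral_norm_eq_lintegral_enorm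
        ((Integrable.of_bound (hmeas _ _).aestronglyMeasurable 1
          (Eventually.of_forall fun v => hg1 k _)).sub hxi)]
      exact ENNReal.ofReal_le_ofReal (by simpa [Real.norm_eq_abs] using hg k)
    refine tendsto_of_tendsto_of_tendsto_of_le_of_le tendsto_const_nhds ?_ (fun _ => zero_le) e
    simpa using ENNReal.tendsto_ofReal (tendsto_one_div_add_atTop_nhds_zero_nat (𝕜 := ℝ))
  obtain ⟨ns, -, hns⟩ := hm.exists_seq_tendsto_ae
  exact ⟨fun k => M (ns k), fun k => g (ns k), fun k u => hg1 _ _, hns⟩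

end Vale.Agent.P168.MP.Upper
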