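import Vale.Agent.P168.MP.Upper.Ends
import Vale.Agent.P168.MP.TrialStep

/-! Trial functions factoring through a finite set of digits: their levels are finite nested power
means, equal to the site and message-only values of the hybrid. -/

namespace Vale.Agent.P168.MP.Upper

open Finset Real MeasureTheory

variable {α : Type} [Fintype α]

lemma av_curry {β γ δ : Type} [Fintype β] [Fintype γ] [Fintype δ] [DecidableEq β] [DecidableEq γ]
    (F : (β → γ → δ) → ℝ) : av (fun o : β × γ → δ => F fun k j => o (k, j)) = av F :=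
  av_equiv (Equiv.curry β γ δ) F

lemma Z_shift {Ω : Type*} [Fintype Ω] (m : ℕ → ℝ) (w : List Ω → ℝ) (o : Ω) :
    ∀ (k : ℕ) (pre : List Ω),
      Z m w k (o :: pre) = Z (fun l => m (l + 1)) (fun p => w (o :: p)) k pre
  | 0, pre => by simp [Z_zero]
  | k + 1, pre => by
    simp only [Z_succ, List.length_cons, List.cons_append, Z_shift m w o k]

lemma inner_digits {ι : Type} [Fintype ι] [DecidableEq ι] [MeasurableSpace α]
    [MeasurableSingletonClass α] {q : ℝ → α} (hq : Measurable q)
    (hint : ∀ g : α → ℝ, ∫ t, g (q t) ∂unif01 = avg g) (Y : (ι → ℝ) → ℝ) :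
    ∀ (r : ℕ) (m : Fin r → ℝ) (m' : ℕ → ℝ), (∀ j : Fin r, m' (j + 1) = m j) →
      ∀ φ : ι → List α → ℝ,
        inner r m (fun i v => φ i (List.ofFn fun j => q (v j))) Y =
          Z m' (fun p : List (ι → α) => Y fun i => φ i (p.map fun o => o i)) r []
  | 0, m, m', _, φ => by simp [inner, Z_zero]
  | r + 1, m, m', hm, φ => by
    rw [Z_succ]
    simp only [List.length_nil, List.nil_append, zero_add,
      show m' 1 = m 0 by simpa using hm 0]
    simp only [inner]
    let G : (ι → α) → ℝ := fun o =>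
      Z m' (fun p : List (ι → α) => Y fun i => φ i (p.map fun o => o i)) r [o] ^ m 0
    have e : ∀ ω : ι → ℝ, inner r (Fin.tail m)
        (fun i v => φ i (List.ofFn fun j => q ((Fin.cons (ω i) v : Fin (r + 1) → ℝ) j))) Y ^ m 0 =
        G fun i => q (ω i) := fun ω => by
      simp only [List.ofFn_succ, Fin.cons_zero, Fin.cons_succ]
      rw [inner_digits hq hint Y r (Fin.tail m) (fun l => m' (l + 1))
        (fun j => by simpa [Fin.tail] using hm j.succ) (fun i l => φ i (q (ω i) :: l))]
      simp only [G, Z_shift]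
      rfl
    simp only [e]
    congr 1
    rw [integral_pi_quantile (fun _ => q) (fun _ => hq) (fun _ _ => 1 / (Fintype.card α : ℝ))
      (fun _ g => by rw [hint g, avg, ← mul_sum]; ring) G]
    simp only [prod_const, ← mul_sum, avg, Fintype.card_fun, Nat.cast_pow, card_univ, one_div,
      inv_pow, G]
    ring

variable {K n r : ℕ}

/-- the message function of digits -/
def msg [Inhabited α] (g : (Fin (r + 1) → α) → ℝ) (ω₀ : α) (p : List α) : ℝ :=
  g (Fin.cons ω₀ fun i : Fin r => p.getD i default)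

/-- the trial function of digits -/
def stepX (q : ℝ → α) (g : (Fin (r + 1) → α) → ℝ) (v : Fin (r + 1) → ℝ) : ℝ :=
  g fun i => q (v i)

/-- the nested log functional of a variable of the messages -/
noncomputable def lev {B Ω₀ : Type} [Fintype B] (r : ℕ) (m : ℕ → ℝ) (ξ : Ω₀ → List B → ℝ)
    (Y : (Fin n → Fin K → ℝ) → ℝ) (o : Fin n → Fin K → Ω₀) : ℝ :=
  log (Z m (fun p : List (Fin n → Fin K → B) =>
    Y fun k j => ξ (o k j) (p.map fun q => q k j)) r [])

lemma levels_digits [Inhabited α] [MeasurableSpace α] [MeasurableSingletonClass α] {q : ℝ → α}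
    (hq : Measurable q) (hint : ∀ g : α → ℝ, ∫ t, g (q t) ∂unif01 = avg g) (m : Fin r → ℝ)
    (m' : ℕ → ℝ) (hm : ∀ j : Fin r, m' (j + 1) = m j) (g : (Fin (r + 1) → α) → ℝ)
    (Y : (Fin n → Fin K → ℝ) → ℝ) :
    levels r m (stepX q g) Y = av fun o => lev r m' (msg g) Y o := by
  let φ : (Fin n × Fin K → α) → (Fin n × Fin K) → List α → ℝ := fun o i l => msg g (o i) l
  let G : (Fin n × Fin K → α) → ℝ := fun o =>
    log (Z m' (fun p : List (Fin n × Fin K → α) =>
      Y fun k j => φ o (k, j) (p.map fun z => z (k, j))) r [])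
  have e : ∀ ω₀ : Fin n × Fin K → ℝ,
      log (inner r m (fun i v => stepX q g (Fin.cons (ω₀ i) v)) fun xs => Y fun k j => xs (k, j)) =
        G fun i => q (ω₀ i) := fun ω₀ => by
    have hX : (fun i (v : Fin r → ℝ) => stepX q g (Fin.cons (ω₀ i) v)) =
        fun i v => φ (fun i => q (ω₀ i)) i (List.ofFn fun j => q (v j)) := by
      funext i v
      simp only [φ, msg, stepX]
      congr 1
      funext a
      refine Fin.cases ?_ (fun b => ?_) a
      · simp
      · simp
    rw [hX, inner_digits hq hint _ r m m' hm]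
  simp only [levels, e]
  rw [integral_pi_quantile (fun _ => q) (fun _ => hq) (fun _ _ => 1 / (Fintype.card α : ℝ))
    (fun _ g => by rw [hint g, avg, ← mul_sum]; ring) G]
  have hG : ∀ o : Fin n × Fin K → α, G o = lev r m' (msg g) Y fun k j => o (k, j) := fun o => by
    simp only [G, φ, lev]
    have e2 : (fun p : List (Fin n × Fin K → α) =>
        Y fun k j => msg g (o (k, j)) (p.map fun z => z (k, j))) =
      fun p => (fun p' : List (Fin n → Fin K → α) =>
        Y fun k j => msg g (o (k, j)) (p'.map fun z => z k j))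
          (p.map (Equiv.curry (Fin n) (Fin K) α)) := by
      funext p
      simp only [List.map_map, Function.comp_def, Equiv.curry_apply, Function.curry_apply]
    rw [e2, Z_equiv (m := m') (Equiv.curry (Fin n) (Fin K) α) (fun p' : List (Fin n → Fin K → α) =>
        Y fun k j => msg g (o (k, j)) (p'.map fun z => z k j)) r []]
    rfl
  rw [← av_curry fun o => lev r m' (msg g) Y o]
  simp only [← hG]
  simp only [prod_const, ← mul_sum, av, Fintype.card_fun, Nat.cast_pow, card_univ, one_div, inv_pow]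
  ring

/-! ### agreement with the values of the hybrid -/

omit [Fintype α] in
lemma msg_take [Inhabited α] (g : (Fin (r + 1) → α) → ℝ) (ω₀ : α) (p : List α) (o : α)
    (hp : p.length = r) : msg g ω₀ (p ++ [o]) = msg g ω₀ p := by
  unfold msg
  congr 2
  funext i
  rw [List.getD_append _ _ _ _ (by omega)]

lemma Z_top {Ω : Type} [Fintype Ω] {m : ℕ → ℝ} (htop : m (r + 1) = 1) {w w' : List Ω → ℝ}
    (h : ∀ pre, pre.length = r → avg (fun o => w (pre ++ [o])) = w' pre) :
    Z m w (r + 1) [] = Z m w' r [] := by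
  rw [← Z_Z r 1 []]
  refine Z_congr r [] fun suf hs => ?_
  simp only [List.nil_append, Z_succ, Z_zero, hs, htop, rpow_one, one_div_one]
  exact h suf hs

variable {N : ℕ} {m : ℕ → ℝ} [Inhabited α]

omit [Fintype α] in
lemma Cu_eq {Ω₀ B : Type} (ξ : Ω₀ → List B → ℝ) {c : Clause K} (hc : P168.Valid c)
    (d : Fin K × (Fin K → Ω₀)) (s : Bool) (bs : Fin K → List B) :
    Cu ξ c d s bs = clauseU c d.1 s fun j => ξ (d.2 j) (bs j) := by
  rw [clauseU_eq hc, Cu, Cs, Xs]
  congr 3
  rw [← mul_prod_erase univ _ (mem_univ d.1)]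
  congr 1
  · simp [single]
  · exact prod_congr rfl fun j hj => by simp [single, ne_of_mem_erase hj]

omit [Fintype α] in
lemma cavU_pos {h : ℝ} {w : Fin n → Clause K} (ℓ : Fin n → Fin K) {xs : Fin n → Fin K → ℝ}
    (hx : ∀ k j, |xs k j| ≤ 1) : 0 < cavU h w ℓ xs :=
  (exp_pos _).trans_le (cavU_mem_abs h w ℓ hx).1

lemma site_eq (E : Exps (r + 1) m) (g : (Fin (r + 1) → α) → ℝ) (hg : ∀ u, |g u| ≤ 1) (x : ℝ)
    {w : Fin n → Clause K} (hw : ∀ k, P168.Valid (w k)) (d : Fin n → Fin K × (Fin K → α)) :
    site r m (msg g) x w d =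
      lev r m (msg g) (cavU x w fun k => (d k).1) (fun k j => (d k).2 j) - log 2 := by
  let W : List (Fin n → Fin K → α) → ℝ := fun p =>
    cavU x w (fun k => (d k).1) fun k j => msg g ((d k).2 j) (p.map fun z => z k j)
  have hW : ∀ p, 0 < W p := fun p => cavU_pos _ fun k j => hg _
  have h1 : Z m (siteW (msg g) x w d) (r + 1) [] =
      Z m (fun p : List (Bool × (Fin n → Fin K → α)) => (1 / 2) * W (p.map Prod.snd)) r [] := by
    refine Z_top E.top fun pre hpre => ?_
    simp only [avg, Fintype.sum_prod_type, Fintype.card_prod, Fintype.card_bool, Nat.cast_mul,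
      Nat.cast_ofNat]
    have hone : ∀ (s : Bool) (z : Fin n → Fin K → α), siteW (msg g) x w d (pre ++ [(s, z)]) =
        exp (x * sg s) * ∏ k, clauseU (w k) (d k).1 s fun j =>
          msg g ((d k).2 j) ((pre.map Prod.snd).map fun z => z k j) := fun s z => by
      simp only [siteW, last1, List.map_append, List.map_cons, List.map_nil, List.getLastD_concat,
        Cu_eq _ (hw _)]
      congr 1
      refine prod_congr rfl fun k _ => congrArg _ (funext fun j => ?_)
      rw [msg_take _ _ _ _ (by simp [hpre]), List.map_map]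
      rfl
    simp only [hone, sum_const, card_univ, nsmul_eq_mul, ← mul_sum, W, cavU_eq]
    have hc : (Fintype.card (Fin n → Fin K → α) : ℝ) ≠ 0 := by exact_mod_cast Fintype.card_ne_zero
    field_simp
  have h2 := Z_prod (m := m) (Equiv.refl (Bool × (Fin n → Fin K → α)))
    (F := fun _ : List Bool => (1 / 2 : ℝ)) (G := W) (fun _ => by norm_num) (fun p => (hW p).le) r []
  simp only [Equiv.refl_apply, List.map_nil] at h2
  unfold site lev
  rw [h1, h2, Z_const E.pos (by norm_num), log_mul (by norm_num) (Z_pos hW _ _).ne', one_div,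
    log_inv]
  simp only [W]
  ring

lemma vp_eq (E : Exps (r + 1) m) (g : (Fin (r + 1) → α) → ℝ) {c : Clause K} (hc : P168.Valid c)
    (c₀ : Fin K → Fin N × α) :
    vp r m (msg g) c c₀ = log (Z m (fun p : List (Fin K → α) =>
      clauseV c fun j => msg g (c₀ j).2 (p.map fun z => z j)) r []) := by
  refine congrArg log (Z_top E.top fun pre hpre => ?_)
  have hone : ∀ o : Fin K → α, (Cs (msg g) c c₀ (fun _ => false) (fun _ => false)
      fun j => (pre ++ [o]).map fun z => z j) =
      clauseV c fun j => msg g (c₀ j).2 (pre.map fun z => z j) := fun o => by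
    rw [clauseV_eq hc, Cs, Xs]
    congr 3
    refine prod_congr rfl fun j _ => ?_
    simp only [Bool.false_eq_true, if_false, List.map_append, List.map_cons, List.map_nil]
    rw [msg_take _ _ _ _ (by simp [hpre])]
  simp only [hone, avg_const]

lemma lev_cavV (E : Exps (r + 1) m) (g : (Fin (r + 1) → α) → ℝ) (hg : ∀ u, |g u| ≤ 1) [NeZero N]
    {w : Fin n → Clause K} (hw : ∀ k, P168.Valid (w k)) (o : Fin n → Fin K → α) :
    lev r m (msg g) (cavV w) o =
      ∑ k, vp r m (msg g) (w k) (fun j => ((0 : Fin N), o k j)) := by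
  let F : Fin n → List (Fin K → α) → ℝ := fun k p =>
    clauseV (w k) fun j => msg g (o k j) (p.map fun z => z j)
  have hF : ∀ k p, 0 < F k p := fun k p =>
    (exp_pos _).trans_le (clauseV_mem_abs (w k) fun j => hg _).1
  have e : (fun p : List (Fin n → Fin K → α) =>
      cavV w fun k j => msg g (o k j) (p.map fun z => z k j)) =
      fun p => ∏ k, F k (p.map fun z => (Equiv.refl (Fin n → Fin K → α)) z k) := by
    funext p
    simp only [cavV_eq, F, Equiv.refl_apply, List.map_map, Function.comp_def]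
  unfold lev
  rw [e, Z_pi (Equiv.refl (Fin n → Fin K → α)) (fun k p => (hF k p).le),
    log_prod fun k _ => (Z_pos (hF k) _ _).ne']
  refine sum_congr rfl fun k _ => ?_
  rw [vp_eq E g (hw k)]
  rfl

variable {μ : Measure (Clause K)} {β : Measure ℝ} {η : Measure (ℝ × ℝ)} {ρ : Measure ℝ}
  [MeasurableSpace α] [MeasurableSingletonClass α] {q : ℝ → α}

lemma av_levels {a : ℕ} (hq : Measurable q) (hint : ∀ g : α → ℝ, ∫ t, g (q t) ∂unif01 = avg g)
    (m₀ : Fin r → ℝ) (hm : ∀ j : Fin r, m (j + 1) = m₀ j) (g : (Fin (r + 1) → α) → ℝ)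
    (Y : (Fin a → Fin K) → (Fin a → Fin K → ℝ) → ℝ) :
    (av fun d : Fin a → Fin K × (Fin K → α) =>
        lev r m (msg g) (Y fun k => (d k).1) fun k j => (d k).2 j) =
      av fun ℓ : Fin a → Fin K => levels r m₀ (stepX q g) (Y ℓ) := by
  simp only [levels_digits hq hint m₀ m hm g]
  refine (av_equiv (Equiv.arrowProdEquivProdArrow (Fin a) (fun _ => Fin K) (fun _ => Fin K → α))
    fun z => lev r m (msg g) (Y z.1) z.2).trans ?_
  exact av_prod fun (ℓ : Fin a → Fin K) (o : Fin a → Fin K → α) => lev r m (msg g) (Y ℓ) o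

omit [Inhabited α] [MeasurableSpace α] [MeasurableSingletonClass α] in
lemma av_snd [NeZero N] (G : (Fin K → α) → ℝ) :
    (av fun c₀ : Fin K → Fin N × α => G fun j => (c₀ j).2) = av G :=
  av_map (fun z : Fin N × α => z.2) (fun F => by
    rw [av_prod fun (_ : Fin N) o => F o]; exact av_const _) G

/-- the site value is the trial value of `U` -/
lemma uSite_eq (H : Hyp μ β η ρ) [NeZero K] (E : Exps (r + 1) m) (hq : Measurable q)
    (hint : ∀ g : α → ℝ, ∫ t, g (q t) ∂unif01 = avg g) (m₀ : Fin r → ℝ)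
    (hm : ∀ j : Fin r, m (j + 1) = m₀ j) (g : (Fin (r + 1) → α) → ℝ) (hg : ∀ u, |g u| ≤ 1)
    (x : ℝ) (a : ℕ) :
    uSite r m (msg g) μ x a + log 2 =
      ∫ w : Fin a → Clause K, (av fun ℓ : Fin a → Fin K => levels r m₀ (stepX q g) (cavU x w ℓ))
        ∂Measure.pi (fun _ => μ) := by
  have := H.pμ
  have hξ : ∀ (o : α) (l : List α), |msg g o l| ≤ 1 := fun _ _ => hg _
  rw [uSite, integral_congr_ae (g := fun w : Fin a → Clause K =>
    (av fun ℓ : Fin a → Fin K => levels r m₀ (stepX q g) (cavU x w ℓ)) + (-log 2))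
    ((H.valid_pi a).mono fun w hw => ?_)]
  · have hi : Integrable (fun w : Fin a → Clause K =>
        av fun ℓ : Fin a → Fin K => levels r m₀ (stepX q g) (cavU x w ℓ)) (Measure.pi fun _ => μ) := by
      have hx : Measurable (stepX q g) := (Measurable.of_discrete (f := g)).comp
        (measurable_pi_lambda _ fun i => hq.comp (measurable_pi_apply i))
      refine ((integrable_const (|x| + log 2)).add (H.integral_sum_cb a).1).mono' ?_
        (Filter.Eventually.of_forall fun w => ?_)
      · simp only [av]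
        exact ((Finset.measurable_sum _ fun ℓ _ => measurable_levels hx
          (Y := fun w : Fin a → Clause K => cavU x w ℓ) ((measurable_cavU ℓ).comp
            ((measurable_const.prodMk measurable_fst).prodMk measurable_snd))).div_const _).aestronglyMeasurable
      · exact abs_av_le fun ℓ => abs_levels_cavU_le (fun j => hm j ▸ E.pos _) hx (fun v => hg _) x w ℓ
    rw [integral_add hi (integrable_const _)]
    simp
  · simp only [site_eq E g hg x hw, sub_eq_add_neg]
    rw [av_add, av_const, av_levels hq hint m₀ hm g (cavU x w)]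

/-- the message-only value is the trial value of `V` -/
lemma vbar_eq (H : Hyp μ β η ρ) [NeZero N] (E : Exps (r + 1) m) (hq : Measurable q)
    (hint : ∀ g : α → ℝ, ∫ t, g (q t) ∂unif01 = avg g) (m₀ : Fin r → ℝ)
    (hm : ∀ j : Fin r, m (j + 1) = m₀ j) (g : (Fin (r + 1) → α) → ℝ) (hg : ∀ u, |g u| ≤ 1)
    (b : ℕ) :
    ∫ w : Fin b → Clause K, levels r m₀ (stepX q g) (cavV w) ∂Measure.pi (fun _ => μ) =
      b * vbar N r m (msg g) μ := by
  have := H.pμ
  have hξ : ∀ (o : α) (l : List α), |msg g o l| ≤ 1 := fun _ _ => hg _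
  let V : Clause K → ℝ := fun c => av fun o : Fin K → α => vp r m (msg g) c fun j => ((0 : Fin N), o j)
  have hV : ∀ᵐ c ∂μ, V c = av fun c₀ : Fin K → Fin N × α => vp r m (msg g) c c₀ :=
    H.valid.mono fun c hc => by
      have e : ∀ c₀ : Fin K → Fin N × α,
          vp r m (msg g) c c₀ = vp r m (msg g) c fun j => ((0 : Fin N), (c₀ j).2) := fun c₀ => by
        rw [vp_eq E g hc, vp_eq E g hc]
      simp only [e]
      exact (av_snd fun o => vp r m (msg g) c fun j => ((0 : Fin N), o j)).symm
  have hVi : Integrable V μ := (integral_av fun o => integrable_vp H E hξ _).1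
  rw [integral_congr_ae (g := fun w : Fin b → Clause K => ∑ k, V (w k))
    ((H.valid_pi b).mono fun w hw => ?_), (integral_sum_eval μ hVi b).2, vbar,
    integral_congr_ae hV]
  simp only [levels_digits hq hint m₀ m hm g, lev_cavV (N := N) E g hg hw, av_sum]
  exact sum_congr rfl fun k _ =>
    av_coord k fun o : Fin K → α => vp r m (msg g) (w k) fun j => ((0 : Fin N), o j)

end Vale.Agent.P168.MP.Upper
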